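import Mathlib

/-! Green's formula for `g(a) h(b)` on a triangle in the `(a,b)`-plane, with `g`, `h` merely
bounded measurable. -/

namespace Vale.Agent.P099.Sym

open MeasureTheory Set intervalIntegral
open scoped Real

noncomputable section

/-- twice the signed area -/
def cr (p p' q : ℝ × ℝ) : ℝ := (p'.1 - p.1) * (q.2 - p.2) - (p'.2 - p.2) * (q.1 - p.1)

/-- the open triangle -/
def tri3 (p₀ p₁ p₂ : ℝ × ℝ) : Set (ℝ × ℝ) :=
  {q | 0 < cr p₀ p₁ p₂ * cr p₀ p₁ q ∧ 0 < cr p₀ p₁ p₂ * cr p₁ p₂ q ∧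
    0 < cr p₀ p₁ p₂ * cr p₂ p₀ q}

/-- boundary term of the edge from `p` to `q` -/
def edge (g H : ℝ → ℝ) (p q : ℝ × ℝ) : ℝ :=
  (q.1 - p.1) * ∫ r in (0 : ℝ)..1, g (p.1 + r * (q.1 - p.1)) * H (p.2 + r * (q.2 - p.2))

/-- height of the line `pq` above `a` -/
def ell (p q : ℝ × ℝ) (a : ℝ) : ℝ := p.2 + (a - p.1) * ((q.2 - p.2) / (q.1 - p.1))

lemma cr_rot (p₀ p₁ p₂ : ℝ × ℝ) : cr p₁ p₂ p₀ = cr p₀ p₁ p₂ := by unfold cr; ring

lemma cr_swap (p q r : ℝ × ℝ) : cr q p r = -cr p q r := by unfold cr; ring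

lemma tri3_rot (p₀ p₁ p₂ : ℝ × ℝ) : tri3 p₁ p₂ p₀ = tri3 p₀ p₁ p₂ := by
  ext q; simp only [tri3, mem_ofPred_eq, cr_rot p₀ p₁ p₂]; tauto

lemma tri3_swap (p₀ p₁ p₂ : ℝ × ℝ) : tri3 p₁ p₀ p₂ = tri3 p₀ p₁ p₂ := by
  ext q
  simp only [tri3, mem_ofPred_eq, cr_swap p₀ p₁, cr_swap p₂ p₀ q, cr_swap p₁ p₂ q, neg_mul_neg]
  tauto

lemma edge_eq (g H : ℝ → ℝ) {p q : ℝ × ℝ} (h : q.1 ≠ p.1) :
    edge g H p q = ∫ a in p.1..q.1, g a * H (ell p q a) := by
  have hd : q.1 - p.1 ≠ 0 := sub_ne_zero.2 h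
  rw [edge]
  have e : (fun r : ℝ => g (p.1 + r * (q.1 - p.1)) * H (p.2 + r * (q.2 - p.2))) =
      fun r => (fun a => g a * H (ell p q a)) ((q.1 - p.1) * r + p.1) := by
    funext r
    simp only [ell]
    congr 2 <;> field_simp <;> ring
  rw [e, intervalIntegral.mul_integral_comp_mul_add (f := fun a => g a * H (ell p q a))]
  simp

lemma edge_swap (g H : ℝ → ℝ) (p q : ℝ × ℝ) : edge g H q p = -edge g H p q := by
  unfold edge
  have e : (fun r : ℝ => g (q.1 + r * (p.1 - q.1)) * H (q.2 + r * (p.2 - q.2))) =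
      fun r => (fun r => g (p.1 + r * (q.1 - p.1)) * H (p.2 + r * (q.2 - p.2))) (1 - r) := by
    funext r
    simp only
    congr 2 <;> ring
  rw [e, intervalIntegral.integral_comp_sub_left
    (fun r => g (p.1 + r * (q.1 - p.1)) * H (p.2 + r * (q.2 - p.2)))]
  simp only [sub_zero, sub_self]
  ring

variable {g h H : ℝ → ℝ} {Mg Mh : ℝ}

lemma intervalIntegrable_bdd (hm : Measurable h) (hb : ∀ x, |h x| ≤ Mh) (a b : ℝ) :
    IntervalIntegrable h volume a b := by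
  rw [intervalIntegrable_iff]
  exact IntegrableOn.of_bound measure_Ioc_lt_top hm.aestronglyMeasurable.restrict Mh
    (ae_of_all _ fun x => hb x)

lemma prim_continuous (hm : Measurable h) (hb : ∀ x, |h x| ≤ Mh)
    (hH : ∀ x y, H y - H x = ∫ s in x..y, h s) : Continuous H := by
  have : H = fun x => H 0 + ∫ s in (0 : ℝ)..x, h s := by funext x; rw [← hH 0 x]; ring
  rw [this]
  exact continuous_const.add
    (intervalIntegral.continuous_primitive (intervalIntegrable_bdd hm hb) 0)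

lemma integral_Ioo_eq (hH : ∀ x y, H y - H x = ∫ s in x..y, h s) {x y : ℝ} (hxy : x ≤ y) :
    ∫ s in Ioo x y, h s = H y - H x := by
  rw [hH, intervalIntegral.integral_of_le hxy, MeasureTheory.integral_Ioc_eq_integral_Ioo]

/-- signed integral over a slice -/
lemma slice (hH : ∀ x y, H y - H x = ∫ s in x..y, h s) {d e l : ℝ} (hd : d ≠ 0)
    (hs : 0 ≤ d * (l - e)) :
    Real.sign d * (∫ t in {t | 0 < d * (t - e) ∧ 0 < d * (l - t)}, h t) = H l - H e := by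
  rcases lt_or_gt_of_ne hd with hn | hp
  · have : {t | 0 < d * (t - e) ∧ 0 < d * (l - t)} = Ioo l e := by
      ext t; simp only [mem_ofPred_eq, mem_Ioo]; constructor
      · rintro ⟨x, y⟩; constructor <;> nlinarith
      · rintro ⟨x, y⟩; constructor <;> nlinarith
    rw [this, integral_Ioo_eq hH (by nlinarith), Real.sign_of_neg hn]; ring
  · have : {t | 0 < d * (t - e) ∧ 0 < d * (l - t)} = Ioo e l := by
      ext t; simp only [mem_ofPred_eq, mem_Ioo]; constructor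
      · rintro ⟨x, y⟩; constructor <;> nlinarith
      · rintro ⟨x, y⟩; constructor <;> nlinarith
    rw [this, integral_Ioo_eq hH (by nlinarith), Real.sign_of_pos hp]; ring

lemma continuous_ell (p q : ℝ × ℝ) : Continuous (ell p q) := by unfold ell; fun_prop

lemma tri3_subset (p₀ p₁ p₂ : ℝ × ℝ) :
    ∃ R : ℝ, tri3 p₀ p₁ p₂ ⊆ Icc (-R) R ×ˢ Icc (-R) R := by
  set d := cr p₀ p₁ p₂ with hd
  set R := |p₀.1| + |p₁.1| + |p₂.1| + |p₀.2| + |p₁.2| + |p₂.2|
  refine ⟨R, ?_⟩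
  rintro q ⟨x, y, z⟩
  set l₂ := d * cr p₀ p₁ q
  set l₀ := d * cr p₁ p₂ q
  set l₁ := d * cr p₂ p₀ q
  have hsum : l₀ + l₁ + l₂ = d * d := by simp only [l₀, l₁, l₂, hd, cr]; ring
  have h1 : l₀ * p₀.1 + l₁ * p₁.1 + l₂ * p₂.1 = (d * d) * q.1 := by
    simp only [l₀, l₁, l₂, hd, cr]; ring
  have h2 : l₀ * p₀.2 + l₁ * p₁.2 + l₂ * p₂.2 = (d * d) * q.2 := by
    simp only [l₀, l₁, l₂, hd, cr]; ring
  have key : ∀ a b c v : ℝ, |a| ≤ R → |b| ≤ R → |c| ≤ R →
      l₀ * a + l₁ * b + l₂ * c = (d * d) * v → v ∈ Icc (-R) R := by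
    intro a b c v ha hb hc he
    rw [abs_le] at ha hb hc
    constructor <;> nlinarith [mul_le_mul_of_nonneg_left ha.1 y.le,
      mul_le_mul_of_nonneg_left ha.2 y.le, mul_le_mul_of_nonneg_left hb.1 z.le,
      mul_le_mul_of_nonneg_left hb.2 z.le, mul_le_mul_of_nonneg_left hc.1 x.le,
      mul_le_mul_of_nonneg_left hc.2 x.le]
  have hn := abs_nonneg p₀.1
  have hn1 := abs_nonneg p₁.1
  have hn2 := abs_nonneg p₂.1
  have hn3 := abs_nonneg p₀.2
  have hn4 := abs_nonneg p₁.2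
  have hn5 := abs_nonneg p₂.2
  exact ⟨key _ _ _ _ (by simp only [R]; linarith) (by simp only [R]; linarith)
    (by simp only [R]; linarith) h1, key _ _ _ _ (by simp only [R]; linarith)
    (by simp only [R]; linarith) (by simp only [R]; linarith) h2⟩

lemma measurableSet_tri3 (p₀ p₁ p₂ : ℝ × ℝ) : MeasurableSet (tri3 p₀ p₁ p₂) := by
  have hc : ∀ p p' : ℝ × ℝ, Continuous fun q => cr p₀ p₁ p₂ * cr p p' q := by
    intro p p'; unfold cr; fun_prop
  have : IsOpen (tri3 p₀ p₁ p₂) :=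
    (isOpen_lt continuous_const (hc _ _)).inter
      ((isOpen_lt continuous_const (hc _ _)).inter (isOpen_lt continuous_const (hc _ _)))
  exact this.measurableSet

lemma integrableOn_tri3 (hgm : Measurable g) (hgb : ∀ x, |g x| ≤ Mg) (hhm : Measurable h)
    (hhb : ∀ x, |h x| ≤ Mh) (p₀ p₁ p₂ : ℝ × ℝ) :
    IntegrableOn (fun q : ℝ × ℝ => g q.1 * h q.2) (tri3 p₀ p₁ p₂) := by
  obtain ⟨R, hR⟩ := tri3_subset p₀ p₁ p₂
  refine IntegrableOn.of_bound
    ((measure_mono hR).trans_lt ((isCompact_Icc.prod isCompact_Icc).measure_lt_top))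
    (by fun_prop) (Mg * Mh) (ae_of_all _ fun q => ?_)
  rw [norm_mul]
  exact mul_le_mul (hgb _) (hhb _) (norm_nonneg _) ((abs_nonneg _).trans (hgb 0))

/-- sorted case -/
lemma green_sorted (hgm : Measurable g) (hgb : ∀ x, |g x| ≤ Mg) (hhm : Measurable h)
    (hhb : ∀ x, |h x| ≤ Mh) (hH : ∀ x y, H y - H x = ∫ s in x..y, h s) {p₀ p₁ p₂ : ℝ × ℝ}
    (h01 : p₀.1 < p₁.1) (h12 : p₁.1 < p₂.1) (hd : cr p₀ p₁ p₂ ≠ 0) :
    Real.sign (cr p₀ p₁ p₂) * ∫ q in tri3 p₀ p₁ p₂, g q.1 * h q.2 =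
      -(edge g H p₀ p₁ + edge g H p₁ p₂ + edge g H p₂ p₀) := by
  have h02 : p₀.1 < p₂.1 := h01.trans h12
  set d := cr p₀ p₁ p₂ with hddef
  set L := ell p₀ p₂ with hL
  set A := ell p₀ p₁ with hA
  set B := ell p₁ p₂ with hB
  set m₀ := p₁.1 - p₀.1 with hm₀
  set m₁ := p₂.1 - p₁.1 with hm₁
  have u1 : 0 < m₀ := by linarith
  have u2 : 0 < m₁ := by linarith
  have u3 : 0 < m₀ + m₁ := by linarith
  have eA : ∀ a t : ℝ, cr p₀ p₁ (a, t) = m₀ * (t - A a) := by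
    intro a t
    have : p₁.1 - p₀.1 ≠ 0 := by linarith
    simp only [cr, hA, ell, hm₀]; field_simp; ring
  have eB : ∀ a t : ℝ, cr p₁ p₂ (a, t) = m₁ * (t - B a) := by
    intro a t
    have : p₂.1 - p₁.1 ≠ 0 := by linarith
    simp only [cr, hB, ell, hm₁]; field_simp; ring
  have eL : ∀ a t : ℝ, cr p₂ p₀ (a, t) = (m₀ + m₁) * (L a - t) := by
    intro a t
    have : p₂.1 - p₀.1 ≠ 0 := by linarith
    simp only [cr, hL, ell, hm₀, hm₁]; field_simp; ring
  have iAB : ∀ a : ℝ, m₀ * m₁ * (A a - B a) = d * (p₁.1 - a) := by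
    intro a
    have h1 := eA a 0
    have h2 := eB a 0
    simp only [hddef, cr, hm₀, hm₁] at h1 h2 ⊢
    linear_combination (p₂.1 - p₁.1) * h1 - (p₁.1 - p₀.1) * h2
  have iAL : ∀ a : ℝ, m₀ * (m₀ + m₁) * (L a - A a) = d * (a - p₀.1) := by
    intro a
    have h1 := eA a 0
    have h2 := eL a 0
    simp only [hddef, cr, hm₀, hm₁] at h1 h2 ⊢
    linear_combination -(p₂.1 - p₀.1) * h1 - (p₁.1 - p₀.1) * h2
  have iBL : ∀ a : ℝ, m₁ * (m₀ + m₁) * (L a - B a) = d * (p₂.1 - a) := by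
    intro a
    have h1 := eB a 0
    have h2 := eL a 0
    simp only [hddef, cr, hm₀, hm₁] at h1 h2 ⊢
    linear_combination -(p₂.1 - p₀.1) * h1 - (p₂.1 - p₁.1) * h2
  have hd2 : 0 < d * d := mul_self_pos.2 hd
  have sgn : ∀ {c x : ℝ}, 0 < c → (0 < d * (c * x) ↔ 0 < d * x) := by
    intro c x hc
    rw [show d * (c * x) = c * (d * x) by ring]
    exact mul_pos_iff_of_pos_left hc
  have hmem : ∀ a t : ℝ, (a, t) ∈ tri3 p₀ p₁ p₂ ↔
      0 < d * (t - A a) ∧ 0 < d * (t - B a) ∧ 0 < d * (L a - t) := by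
    intro a t
    show 0 < d * cr p₀ p₁ (a, t) ∧ 0 < d * cr p₁ p₂ (a, t) ∧ 0 < d * cr p₂ p₀ (a, t) ↔ _
    rw [eA, eB, eL, sgn u1, sgn u2, sgn u3]
  have sA : ∀ a, p₀.1 < a → a < p₁.1 → {t | (a, t) ∈ tri3 p₀ p₁ p₂} =
      {t | 0 < d * (t - A a) ∧ 0 < d * (L a - t)} := by
    intro a a0 a1
    ext t; simp only [mem_ofPred_eq, hmem]
    refine ⟨fun x => ⟨x.1, x.2.2⟩, fun x => ⟨x.1, ?_, x.2⟩⟩
    have : 0 < m₀ * m₁ * (d * (A a - B a)) := by
      rw [show m₀ * m₁ * (d * (A a - B a)) = d * (m₀ * m₁ * (A a - B a)) by ring, iAB]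
      nlinarith
    nlinarith [(mul_pos_iff_of_pos_left (mul_pos u1 u2)).1 this, x.1]
  have sB : ∀ a, p₁.1 < a → a < p₂.1 → {t | (a, t) ∈ tri3 p₀ p₁ p₂} =
      {t | 0 < d * (t - B a) ∧ 0 < d * (L a - t)} := by
    intro a a1 a2
    ext t; simp only [mem_ofPred_eq, hmem]
    refine ⟨fun x => ⟨x.2.1, x.2.2⟩, fun x => ⟨?_, x.1, x.2⟩⟩
    have : 0 < m₀ * m₁ * (d * (B a - A a)) := by
      rw [show m₀ * m₁ * (d * (B a - A a)) = -(d * (m₀ * m₁ * (A a - B a))) by ring, iAB]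
      nlinarith
    nlinarith [(mul_pos_iff_of_pos_left (mul_pos u1 u2)).1 this, x.1]
  have s0 : ∀ a, a < p₀.1 ∨ p₂.1 < a → {t | (a, t) ∈ tri3 p₀ p₁ p₂} = ∅ := by
    intro a ha
    ext t; simp only [mem_ofPred_eq, hmem, mem_empty_iff_false, iff_false]
    rintro ⟨x, y, z⟩
    have h1 : 0 < m₀ * (m₀ + m₁) * (d * (L a - A a)) := mul_pos (by positivity) (by linarith)
    have h2 : 0 < m₁ * (m₀ + m₁) * (d * (L a - B a)) := mul_pos (by positivity) (by linarith)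
    rw [show m₀ * (m₀ + m₁) * (d * (L a - A a)) = d * (m₀ * (m₀ + m₁) * (L a - A a)) by ring,
      iAL] at h1
    rw [show m₁ * (m₀ + m₁) * (d * (L a - B a)) = d * (m₁ * (m₀ + m₁) * (L a - B a)) by ring,
      iBL] at h2
    rcases ha with ha | ha <;> nlinarith
  -- Fubini
  set Φ : ℝ → ℝ := fun a => Real.sign d * (g a * ∫ t in {t | (a, t) ∈ tri3 p₀ p₁ p₂}, h t)
    with hΦ
  have hms := measurableSet_tri3 p₀ p₁ p₂
  have hint := (integrable_indicator_iff hms).2 (integrableOn_tri3 hgm hgb hhm hhb p₀ p₁ p₂)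
  have hind : ∀ a, (∫ t, (tri3 p₀ p₁ p₂).indicator (fun q : ℝ × ℝ => g q.1 * h q.2) (a, t)) =
      g a * ∫ t in {t | (a, t) ∈ tri3 p₀ p₁ p₂}, h t := by
    intro a
    rw [← MeasureTheory.integral_indicator (s := {t | (a, t) ∈ tri3 p₀ p₁ p₂})
      (measurable_prodMk_left hms), ← MeasureTheory.integral_const_mul]
    refine MeasureTheory.integral_congr_ae (ae_of_all _ fun t => ?_)
    by_cases ht : (a, t) ∈ tri3 p₀ p₁ p₂ <;> simp [ht]
  have hfub : Real.sign d * ∫ q in tri3 p₀ p₁ p₂, g q.1 * h q.2 = ∫ a, Φ a := by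
    rw [← MeasureTheory.integral_indicator hms, Measure.volume_eq_prod,
      integral_prod _ (by rwa [← Measure.volume_eq_prod]), ← MeasureTheory.integral_const_mul]
    simp only [hind, hΦ]
  have hHc := prim_continuous hhm hhb hH
  have hii : ∀ (p q : ℝ × ℝ) (x y : ℝ),
      IntervalIntegrable (fun a => g a * H (ell p q a)) volume x y := fun p q x y =>
    (intervalIntegrable_bdd hgm hgb x y).mul_continuousOn
      (hHc.comp (continuous_ell p q)).continuousOn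
  have hΦ01 : ∀ a ∈ Ioo p₀.1 p₁.1, Φ a = g a * H (L a) - g a * H (A a) := by
    intro a ha
    have hs : 0 ≤ d * (L a - A a) := by
      have : 0 ≤ m₀ * (m₀ + m₁) * (d * (L a - A a)) := by
        rw [show m₀ * (m₀ + m₁) * (d * (L a - A a)) = d * (m₀ * (m₀ + m₁) * (L a - A a)) by ring,
          iAL]
        nlinarith [ha.1]
      exact (mul_nonneg_iff_of_pos_left (mul_pos u1 u3)).1 this
    simp only [hΦ, sA a ha.1 ha.2]
    linear_combination g a * slice hH hd hs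
  have hΦ12 : ∀ a ∈ Ioo p₁.1 p₂.1, Φ a = g a * H (L a) - g a * H (B a) := by
    intro a ha
    have hs : 0 ≤ d * (L a - B a) := by
      have : 0 ≤ m₁ * (m₀ + m₁) * (d * (L a - B a)) := by
        rw [show m₁ * (m₀ + m₁) * (d * (L a - B a)) = d * (m₁ * (m₀ + m₁) * (L a - B a)) by ring,
          iBL]
        nlinarith [ha.2]
      exact (mul_nonneg_iff_of_pos_left (mul_pos u2 u3)).1 this
    simp only [hΦ, sB a ha.1 ha.2]
    linear_combination g a * slice hH hd hs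
  have hsupp : ∫ a, Φ a = ∫ a in Icc p₀.1 p₂.1, Φ a := by
    refine (setIntegral_eq_integral_of_forall_compl_eq_zero fun a ha => ?_).symm
    simp only [mem_Icc, not_and_or, not_le] at ha
    simp [hΦ, s0 a ha]
  have hae01 : ∀ᵐ a, a ∈ Ioc p₀.1 p₁.1 → g a * H (L a) - g a * H (A a) = Φ a := by
    filter_upwards [Countable.ae_notMem (countable_singleton p₁.1) volume] with a ha h'
    exact (hΦ01 a ⟨h'.1, lt_of_le_of_ne h'.2 ha⟩).symm
  have hae12 : ∀ᵐ a, a ∈ Ioc p₁.1 p₂.1 → g a * H (L a) - g a * H (B a) = Φ a := by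
    filter_upwards [Countable.ae_notMem (countable_singleton p₂.1) volume] with a ha h'
    exact (hΦ12 a ⟨h'.1, lt_of_le_of_ne h'.2 ha⟩).symm
  have i01 : IntervalIntegrable Φ volume p₀.1 p₁.1 := by
    refine IntervalIntegrable.congr_ae ((hii p₀ p₂ _ _).sub (hii p₀ p₁ _ _)) ?_
    rw [uIoc_of_le h01.le]
    exact (ae_restrict_iff' measurableSet_Ioc).2 hae01
  have i12 : IntervalIntegrable Φ volume p₁.1 p₂.1 := by
    refine IntervalIntegrable.congr_ae ((hii p₀ p₂ _ _).sub (hii p₁ p₂ _ _)) ?_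
    rw [uIoc_of_le h12.le]
    exact (ae_restrict_iff' measurableSet_Ioc).2 hae12
  rw [hfub, hsupp, MeasureTheory.integral_Icc_eq_integral_Ioc,
    ← intervalIntegral.integral_of_le h02.le,
    ← intervalIntegral.integral_add_adjacent_intervals i01 i12]
  have e1 : ∫ a in p₀.1..p₁.1, Φ a = ∫ a in p₀.1..p₁.1, (g a * H (L a) - g a * H (A a)) := by
    refine intervalIntegral.integral_congr_ae ?_
    rw [uIoc_of_le h01.le]
    filter_upwards [hae01] with a ha h' using (ha h').symm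
  have e2 : ∫ a in p₁.1..p₂.1, Φ a = ∫ a in p₁.1..p₂.1, (g a * H (L a) - g a * H (B a)) := by
    refine intervalIntegral.integral_congr_ae ?_
    rw [uIoc_of_le h12.le]
    filter_upwards [hae12] with a ha h' using (ha h').symm
  rw [e1, e2, intervalIntegral.integral_sub (hii _ _ _ _) (hii _ _ _ _),
    intervalIntegral.integral_sub (hii _ _ _ _) (hii _ _ _ _), edge_eq g H h01.ne',
    edge_eq g H h12.ne']
  rw [edge_swap g H p₀ p₂, edge_eq g H h02.ne',
    ← intervalIntegral.integral_add_adjacent_intervals (hii p₀ p₂ p₀.1 p₁.1) (hii p₀ p₂ p₁.1 p₂.1)]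
  ring

/-- Green's formula -/
theorem green (hgm : Measurable g) (hgb : ∀ x, |g x| ≤ Mg) (hhm : Measurable h)
    (hhb : ∀ x, |h x| ≤ Mh) (hH : ∀ x y, H y - H x = ∫ s in x..y, h s) {p₀ p₁ p₂ : ℝ × ℝ}
    (h01 : p₀.1 ≠ p₁.1) (h12 : p₁.1 ≠ p₂.1) (h20 : p₂.1 ≠ p₀.1) (hd : cr p₀ p₁ p₂ ≠ 0) :
    Real.sign (cr p₀ p₁ p₂) * ∫ q in tri3 p₀ p₁ p₂, g q.1 * h q.2 =
      -(edge g H p₀ p₁ + edge g H p₁ p₂ + edge g H p₂ p₀) := by
  have rot : ∀ {a b c : ℝ × ℝ}, a.1 < b.1 → b.1 < c.1 → cr b c a ≠ 0 →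
      Real.sign (cr b c a) * ∫ q in tri3 b c a, g q.1 * h q.2 =
      -(edge g H b c + edge g H c a + edge g H a b) := by
    intro a b c x y hne
    rw [cr_rot] at hne ⊢
    rw [tri3_rot]
    linear_combination green_sorted hgm hgb hhm hhb hH x y hne
  have rot2 : ∀ {a b c : ℝ × ℝ}, a.1 < b.1 → b.1 < c.1 → cr c a b ≠ 0 →
      Real.sign (cr c a b) * ∫ q in tri3 c a b, g q.1 * h q.2 =
      -(edge g H c a + edge g H a b + edge g H b c) := by
    intro a b c x y hne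
    rw [← cr_rot c a b] at hne ⊢
    rw [← tri3_rot c a b]
    linear_combination green_sorted hgm hgb hhm hhb hH x y hne
  have sw : ∀ {a b c : ℝ × ℝ}, (cr b a c ≠ 0 → Real.sign (cr b a c) * ∫ q in tri3 b a c,
      g q.1 * h q.2 = -(edge g H b a + edge g H a c + edge g H c b)) → cr a b c ≠ 0 →
      Real.sign (cr a b c) * ∫ q in tri3 a b c, g q.1 * h q.2 =
      -(edge g H a b + edge g H b c + edge g H c a) := by
    intro a b c k hne
    have := k (by rw [cr_swap]; exact neg_ne_zero.2 hne)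
    rw [cr_swap, tri3_swap, Real.sign_neg, edge_swap g H a b, edge_swap g H c a,
      edge_swap g H b c] at this
    linear_combination -this
  rcases lt_or_gt_of_ne h01 with a | a <;> rcases lt_or_gt_of_ne h12 with b | b <;>
    rcases lt_or_gt_of_ne h20 with c | c
  · exact absurd (a.trans b) (not_lt.2 c.le)
  · exact green_sorted hgm hgb hhm hhb hH a b hd
  · exact rot c a hd
  · exact sw (fun hne => rot2 c b hne) hd
  · exact rot2 b c hd
  · exact sw (fun hne => green_sorted hgm hgb hhm hhb hH a c hne) hd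
  · exact sw (fun hne => rot b a hne) hd
  · exact absurd (LT.lt.trans b a) (not_lt.2 (le_of_lt c))

end

end Vale.Agent.P099.Sym
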