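import Vale.Agent.P099.Meas

/-! Invariant functions are, for each direction, functions of the transverse coordinate, and
these transverse profiles are matched by the reflections at the sides. -/

namespace Vale.Agent.P099.Sym

open MeasureTheory Complex Set Filter Topology Vale.Agent.P099
open scoped RealInnerProductSpace

noncomputable section

attribute [-simp] Complex.real_smul

variable (b : AffineBasis (Fin 3) ℝ ℂ)

/-- `F` is invariant under the flow, in unfolded form -/
def Inv (F : ℂ × Dir → ℝ) : Prop :=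
  ∀ t, 0 < t → ∀ w, ∀ᵐ z : ℂ × Dir, z ∈ Phase b → Good b w z 0 t → F (endState b w t z) = F z

/-- transverse coordinate -/
def sc (θ : Dir) (x : ℂ) : ℝ := ⟪x, I * unitVec θ⟫

/-- longitudinal coordinate -/
def lc (θ : Dir) (x : ℂ) : ℝ := ⟪x, unitVec θ⟫

/-- the point with the coordinates `(r, s)` in direction `θ` -/
def pt (θ : Dir) (s r : ℝ) : ℂ := r • unitVec θ + s • (I * unitVec θ)

lemma inner_e_e (θ : Dir) : ⟪unitVec θ, unitVec θ⟫ = 1 := by
  rw [real_inner_self_eq_norm_sq, norm_unitVec, one_pow]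

lemma inner_n_n (θ : Dir) : ⟪I * unitVec θ, I * unitVec θ⟫ = 1 := by
  rw [real_inner_self_eq_norm_sq, norm_mul, Complex.norm_I, norm_unitVec, one_mul, one_pow]

lemma inner_e_n (θ : Dir) : ⟪unitVec θ, I * unitVec θ⟫ = 0 := by
  simp [Complex.inner, Complex.mul_re, Complex.mul_im]; ring

lemma sc_pt (θ : Dir) (s r : ℝ) : sc θ (pt θ s r) = s := by
  rw [sc, pt, inner_add_left, real_inner_smul_left, real_inner_smul_left, inner_e_n, inner_n_n]
  ring

lemma lc_pt (θ : Dir) (s r : ℝ) : lc θ (pt θ s r) = r := by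
  rw [lc, pt, inner_add_left, real_inner_smul_left, real_inner_smul_left, inner_e_e,
    real_inner_comm (unitVec θ) (I * unitVec θ), inner_e_n]
  ring

lemma pt_sc_lc (θ : Dir) (x : ℂ) : pt θ (sc θ x) (lc θ x) = x := by
  have h : x = (x / unitVec θ).re • unitVec θ + (x / unitVec θ).im • (I * unitVec θ) := by
    simp only [Complex.real_smul]
    calc x = (x / unitVec θ) * unitVec θ := by field_simp [unitVec_ne_zero θ]
      _ = _ := by nth_rewrite 1 [← Complex.re_add_im (x / unitVec θ)]; ring
  conv_lhs => rw [h]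
  change pt θ (sc θ (pt θ _ _)) (lc θ (pt θ _ _)) = _
  rw [sc_pt, lc_pt]; exact h.symm

lemma sc_add_smul (θ : Dir) (x : ℂ) (r : ℝ) (v : ℂ) : sc θ (x + r • v) = sc θ x + r * sc θ v := by
  simp [sc, inner_add_left, real_inner_smul_left]

lemma sc_pos (z : ℂ × Dir) (t : ℝ) : sc z.2 (pos z t) = sc z.2 z.1 := by
  rw [pos, sc_add_smul, sc, sc, inner_e_n]; ring

lemma abs_sc_le (θ : Dir) (x : ℂ) : |sc θ x| ≤ ‖x‖ := by
  refine (abs_real_inner_le_norm _ _).trans ?_
  rw [norm_mul, Complex.norm_I, norm_unitVec, one_mul, mul_one]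

lemma continuous_sc : Continuous fun q : Dir × ℂ => sc q.1 q.2 := by
  have := continuous_unitVec
  unfold sc; fun_prop

lemma continuous_pt : Continuous fun q : Dir × ℝ × ℝ => pt q.1 q.2.1 q.2.2 := by
  have := continuous_unitVec
  unfold pt; fun_prop

/-- chord integral -/
def num (F : ℂ × Dir → ℝ) (θ : Dir) (s : ℝ) : ℝ :=
  ∫ r, (Tri b).indicator (fun x => F (x, θ)) (pt θ s r)

/-- transverse profile: average over the chord -/
def prof (F : ℂ × Dir → ℝ) (θ : Dir) (s : ℝ) : ℝ := num b F θ s / num b (fun _ => 1) θ s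

lemma exists_radius : ∃ R : ℝ, 0 < R ∧ ∀ x ∈ Tri b, ‖x‖ ≤ R := by
  obtain ⟨R, hR⟩ := (isBounded_tri b).exists_norm_le
  exact ⟨max R 1, lt_max_of_lt_right one_pos, fun x hx => (hR x hx).trans (le_max_left _ _)⟩

lemma measurable_chord {F : ℂ × Dir → ℝ} (hF : Measurable F) :
    Measurable fun q : (Dir × ℝ) × ℝ =>
      (Tri b).indicator (fun x => F (x, q.1.1)) (pt q.1.1 q.1.2 q.2) := by
  have hp : Measurable fun q : (Dir × ℝ) × ℝ => pt q.1.1 q.1.2 q.2 :=
    (continuous_pt.comp (show Continuous fun q : (Dir × ℝ) × ℝ => (q.1.1, q.1.2, q.2) by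
      fun_prop)).measurable
  have : (fun q : (Dir × ℝ) × ℝ => (Tri b).indicator (fun x => F (x, q.1.1))
      (pt q.1.1 q.1.2 q.2)) = ((fun q : (Dir × ℝ) × ℝ => pt q.1.1 q.1.2 q.2) ⁻¹' Tri b).indicator
      fun q => F (pt q.1.1 q.1.2 q.2, q.1.1) := by
    funext q
    by_cases h : pt q.1.1 q.1.2 q.2 ∈ Tri b <;> simp [h]
  rw [this]
  exact (hF.comp (hp.prodMk measurable_fst.fst)).indicator (hp (isOpen_tri b).measurableSet)

lemma integrable_chord {F : ℂ × Dir → ℝ} (hF : Measurable F) {M : ℝ} (hM : ∀ z, |F z| ≤ M)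
    (θ : Dir) (s : ℝ) :
    Integrable fun r => (Tri b).indicator (fun x => F (x, θ)) (pt θ s r) := by
  obtain ⟨R, -, hR⟩ := exists_radius b
  have hq : Measurable fun r : ℝ => ((θ, s), r) := measurable_const.prodMk measurable_id
  have hm : Measurable fun r => (Tri b).indicator (fun x => F (x, θ)) (pt θ s r) := by
    have := (measurable_chord b hF).comp hq
    exact this
  refine Integrable.mono' (g := (Icc (-R) R).indicator fun _ => M) ?_ hm.aestronglyMeasurable
    (ae_of_all _ fun r => ?_)
  · exact (integrable_indicator_iff measurableSet_Icc).2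
      (integrableOn_const (measure_Icc_lt_top.ne))
  · by_cases h : pt θ s r ∈ Tri b
    · have hr : r ∈ Icc (-R) R := by
        rw [mem_Icc, ← abs_le, ← lc_pt θ s r]
        refine (abs_real_inner_le_norm _ _).trans ?_
        rw [norm_unitVec, mul_one]; exact hR _ h
      simpa [h, hr] using hM _
    · simp only [indicator_of_notMem h, norm_zero]
      exact indicator_nonneg (fun _ _ => (abs_nonneg _).trans (hM ((0 : ℂ), (0 : Dir)))) _

lemma abs_prof_le {F : ℂ × Dir → ℝ} (hF : Measurable F) {M : ℝ} (hM : ∀ z, |F z| ≤ M)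
    (θ : Dir) (s : ℝ) : |prof b F θ s| ≤ M := by
  have hM0 : 0 ≤ M := (abs_nonneg _).trans (hM ((0 : ℂ), (0 : Dir)))
  have hden : 0 ≤ num b (fun _ => 1) θ s :=
    integral_nonneg fun r => indicator_nonneg (fun _ _ => zero_le_one) _
  have hnum : |num b F θ s| ≤ M * num b (fun _ => 1) θ s := by
    rw [num, num, ← Real.norm_eq_abs, ← integral_const_mul]
    refine norm_integral_le_of_norm_le
      ((integrable_chord b (measurable_const (a := (1 : ℝ))) (M := 1) (by simp) θ s).const_mul M)
      (ae_of_all _ fun r => ?_)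
    by_cases h : pt θ s r ∈ Tri b <;> simp [h, hM]
  rw [prof, abs_div, abs_of_nonneg hden]
  exact div_le_of_le_mul₀ hden hM0 hnum

lemma measurable_prof {F : ℂ × Dir → ℝ} (hF : Measurable F) :
    Measurable fun q : Dir × ℝ => prof b F q.1 q.2 :=
  ((measurable_chord b hF).stronglyMeasurable.integral_prod_right'.measurable).div
    ((measurable_chord b measurable_const).stronglyMeasurable.integral_prod_right'.measurable)

lemma measurable_prof_right {F : ℂ × Dir → ℝ} (hF : Measurable F) (θ : Dir) :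
    Measurable (prof b F θ) :=
  Measurable.of_uncurry_left (f := prof b F) (measurable_prof b hF)

/-- the translation along the direction -/
def fwd (a : ℝ) (z : ℂ × Dir) : ℂ × Dir := (pos z a, z.2)

lemma mp_fwd (a : ℝ) : MeasurePreserving (fwd a) (volume : Measure (ℂ × Dir)) volume :=
  mp_shift (v := fun θ => a • unitVec θ) (continuous_unitVec.const_smul a)

lemma inv_fwd {F : ℂ × Dir → ℝ} (hE : Inv b F) (a : ℝ) :
    ∀ᵐ z : ℂ × Dir, z ∈ Phase b → fwd a z ∈ Phase b → F (fwd a z) = F z := by
  have key : ∀ c : ℝ, 0 < c → ∀ᵐ z : ℂ × Dir, z ∈ Phase b → fwd c z ∈ Phase b →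
      F (fwd c z) = F z := by
    intro c hc
    filter_upwards [hE c hc []] with z hz h0 h1
    exact hz h0 ⟨hc, h1⟩
  rcases lt_trichotomy a 0 with h | rfl | h
  · filter_upwards [(mp_fwd a).quasiMeasurePreserving.ae (key (-a) (by linarith))] with z hz h0 h1
    have e : fwd (-a) (fwd a z) = z := by simp [fwd, pos]
    rw [e] at hz
    exact (hz h1 h0).symm
  · exact ae_of_all _ fun z _ _ => by simp [fwd, pos]
  · exact key a h

/-- an invariant function is its profile -/
theorem eq_prof {F : ℂ × Dir → ℝ} (hF : Measurable F) (hE : Inv b F) :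
    ∀ᵐ z : ℂ × Dir, z ∈ Phase b → F z = prof b F z.2 (sc z.2 z.1) := by
  have hu := continuous_unitVec
  have hc : Continuous fun q : (ℂ × Dir) × ℝ => fwd q.2 q.1 := by unfold fwd pos; fun_prop
  have hS : MeasurableSet {q : (ℂ × Dir) × ℝ |
      q.1 ∈ Phase b → fwd q.2 q.1 ∈ Phase b → F (fwd q.2 q.1) = F q.1} := by
    have : {q : (ℂ × Dir) × ℝ | q.1 ∈ Phase b → fwd q.2 q.1 ∈ Phase b →
        F (fwd q.2 q.1) = F q.1} = (Prod.fst ⁻¹' Phase b)ᶜ ∪
        (((fun q : (ℂ × Dir) × ℝ => fwd q.2 q.1) ⁻¹' Phase b)ᶜ ∪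
        {q : (ℂ × Dir) × ℝ | F (fwd q.2 q.1) = F q.1}) := by
      ext q; simp [imp_iff_not_or]
    rw [this]
    exact (measurable_fst (measurableSet_phase b)).compl.union
      ((hc.measurable (measurableSet_phase b)).compl.union
        (measurableSet_eq_fun (hF.comp hc.measurable) (hF.comp measurable_fst)))
  have h := (Measure.ae_ae_comm (μ := (volume : Measure (ℂ × Dir))) (ν := (volume : Measure ℝ))
    (p := fun z a => z ∈ Phase b → fwd a z ∈ Phase b → F (fwd a z) = F z) hS).2
    (ae_of_all _ fun a => inv_fwd b hE a)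
  filter_upwards [h] with z hz h0
  set θ := z.2
  set s := sc θ z.1
  set l := lc θ z.1
  have hp : ∀ a, pos z a = pt θ s (l + a) := by
    intro a
    have h1 : z.1 = l • unitVec θ + s • (I * unitVec θ) := (pt_sc_lc θ z.1).symm
    show z.1 + a • unitVec θ = (l + a) • unitVec θ + s • (I * unitVec θ)
    rw [h1, add_smul]; abel
  have hae : ∀ᵐ r : ℝ, pt θ s r ∈ Tri b → F (pt θ s r, θ) = F z := by
    filter_upwards [(measurePreserving_sub_right (volume : Measure ℝ) l).quasiMeasurePreserving.ae
      hz] with r hr h1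
    have e : fwd (r - l) z = (pt θ s r, θ) := by
      rw [fwd, hp, add_sub_cancel]
    rw [e] at hr
    exact hr h0 h1
  have hnum : num b F θ s = F z * num b (fun _ => 1) θ s := by
    rw [num, num, ← integral_const_mul]
    refine integral_congr_ae (hae.mono fun r hr => ?_)
    by_cases h1 : pt θ s r ∈ Tri b <;> simp [h1, hr]
  have hden : 0 < num b (fun _ => 1) θ s := by
    rw [num, integral_pos_iff_support_of_nonneg
      (fun r => indicator_nonneg (fun _ _ => zero_le_one) _)
      (integrable_chord b (measurable_const (a := (1 : ℝ))) (M := 1) (by simp) θ s)]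
    refine lt_of_lt_of_le (IsOpen.measure_pos _ ((isOpen_tri b).preimage (f := fun r => pt θ s r)
      (by unfold pt; fun_prop)) ⟨l, ?_⟩) (measure_mono fun r hr => ?_)
    · show pt θ s l ∈ Tri b
      rw [pt_sc_lc]; exact h0
    · simp [indicator_of_mem (show pt θ s r ∈ Tri b from hr)]
  rw [prof, hnum, mul_div_assoc, div_self hden.ne', mul_one]

/-- the point `v` of side `i` -/
def sidePt (i : Fin 3) (v : ℝ) : ℂ := b (i + 1) + v • sideVec b i

lemma coord_sidePt_self (i : Fin 3) (v : ℝ) : b.coord i (sidePt b i v) = 0 := by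
  rw [sidePt, coord_add_smul, coord_base, lin_sideVec]; ring

lemma coord_sidePt_pos (i : Fin 3) {v : ℝ} (hv : v ∈ Ioo (0 : ℝ) 1) {j : Fin 3} (hj : j ≠ i) :
    0 < b.coord j (sidePt b i v) := by
  refine (coord_openSide b i _ ⟨1 - v, v, by linarith [hv.2], hv.1, by ring, ?_⟩).2 j hj
  simp only [sidePt, sideVec, Complex.real_smul]; push_cast; ring

/-- edge relation, for incoming directions -/
lemma edge_rel_aux {F : ℂ × Dir → ℝ} (hF : Measurable F) (hE : Inv b F) (i : Fin 3) :
    ∀ᵐ θ : Dir, lin b i (unitVec θ) < 0 → ∀ᵐ v : ℝ, v ∈ Ioo (0 : ℝ) 1 →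
      prof b F θ (sc θ (sidePt b i v)) =
        prof b F (mirror b i θ) (sc (mirror b i θ) (sidePt b i v)) := by
  have hP := eq_prof b hF hE
  have hS : ∀ᵐ z : ℂ × Dir, ∀ q : ℚ, (0 : ℝ) < q → z ∈ Phase b → Good b [i] z 0 q →
      prof b F z.2 (sc z.2 (pos z (tau b i z))) =
        prof b F (mirror b i z.2) (sc (mirror b i z.2) (pos z (tau b i z))) := by
    refine ae_all_iff.2 fun q => ?_
    by_cases hq : (0 : ℝ) < q
    · filter_upwards [hE q hq [i], hP, (mp_endState b [i] q).quasiMeasurePreserving.ae hP]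
        with z h1 h2 h3 _ h0 hg
      have h4 := h3 hg.end_mem
      rw [h1 h0 hg, h2 h0] at h4
      have e2 : (endState b [i] q z).2 = mirror b i z.2 := rfl
      have e1 : sc (mirror b i z.2) (endState b [i] q z).1 =
          sc (mirror b i z.2) (pos z (tau b i z)) := by
        show sc (fold1 b i z).2 (pos (fold1 b i z) q) = _
        rw [sc_pos, ← sc_pos (fold1 b i z) (tau b i z), pos_fold1,
          refl_eq_self b i _ (coord_pos_tau b i z hg.1.ne)]
        rfl
      rw [e2, e1] at h4
      rw [sc_pos]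
      exact h4
    · exact ae_of_all _ fun z h => absurd h hq
  have hS' : ∀ᵐ θ : Dir, ∀ᵐ x : ℂ, ∀ q : ℚ, (0 : ℝ) < q → (x, θ) ∈ Phase b →
      Good b [i] (x, θ) 0 q → prof b F θ (sc θ (pos (x, θ) (tau b i (x, θ)))) =
        prof b F (mirror b i θ) (sc (mirror b i θ) (pos (x, θ) (tau b i (x, θ)))) := by
    have := (Measure.measurePreserving_swap (μ := (volume : Measure Dir))
      (ν := (volume : Measure ℂ))).quasiMeasurePreserving.ae
      (p := fun z : ℂ × Dir => ∀ q : ℚ, (0 : ℝ) < q → z ∈ Phase b → Good b [i] z 0 q →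
      prof b F z.2 (sc z.2 (pos z (tau b i z))) =
        prof b F (mirror b i z.2) (sc (mirror b i z.2) (pos z (tau b i z))))
      (by rwa [← Measure.volume_eq_prod])
    exact Measure.ae_ae_of_ae_prod this
  filter_upwards [hS'] with θ hθ hl
  set e := unitVec θ with he
  set D := sideVec b i with hD
  -- change variables
  let L : ℂ →ₗ[ℝ] ℂ := Complex.reLm.smulRight D - Complex.imLm.smulRight e
  have hLa : ∀ w : ℂ, L w = w.re • D - w.im • e := fun w => rfl
  have hinj : Function.Injective L := by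
    refine (injective_iff_map_eq_zero L).2 fun w hw => ?_
    rw [hLa] at hw
    have h1 := congrArg (lin b i) hw
    rw [map_sub, map_smul, map_smul, hD, lin_sideVec, map_zero] at h1
    have him : w.im = 0 := by simpa [hl.ne] using h1
    rw [him, zero_smul, sub_zero] at hw
    exact Complex.ext ((smul_eq_zero.1 hw).resolve_right (sideVec_ne_zero b i)) him
  have hdet : LinearMap.det L ≠ 0 := by
    intro h0
    exact (LinearMap.bot_lt_ker_of_det_eq_zero h0).ne' (LinearMap.ker_eq_bot.2 hinj)
  have hqL : Measure.QuasiMeasurePreserving L (volume : Measure ℂ) volume := by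
    refine ⟨(LinearMap.continuous_of_finiteDimensional L).measurable, ?_⟩
    rw [Measure.map_linearMap_addHaar_eq_smul_addHaar _ hdet]
    exact Measure.smul_absolutelyContinuous
  have h1 := ((measurePreserving_add_left (volume : Measure ℂ)
    (b (i + 1))).quasiMeasurePreserving.comp hqL).ae hθ
  have h2 := (Complex.volume_preserving_equiv_real_prod.symm _).quasiMeasurePreserving.ae h1
  rw [Measure.volume_eq_prod] at h2
  filter_upwards [Measure.ae_ae_of_ae_prod h2] with v hv hv01
  set y := sidePt b i v with hy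
  -- small times before and after the reflection
  have hev : ∀ᶠ a in 𝓝 (0 : ℝ), ∀ j ≠ i, 0 < b.coord j (y + (-a) • e) ∧
      0 < b.coord j (y + a • linRefl b i e) := by
    refine eventually_all.2 fun j => ?_
    by_cases hj : j = i
    · exact Eventually.of_forall fun _ h => absurd hj h
    have hp := coord_sidePt_pos b i hv01 hj
    have c1 : ∀ᶠ a in 𝓝 (0 : ℝ), 0 < b.coord j (y + (-a) • e) :=
      (((continuous_coord b j).comp (by fun_prop : Continuous fun a : ℝ => y + (-a) • e)).tendsto 0
        ).eventually (Ioi_mem_nhds (by simpa using hp))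
    have c2 : ∀ᶠ a in 𝓝 (0 : ℝ), 0 < b.coord j (y + a • linRefl b i e) :=
      (((continuous_coord b j).comp (by fun_prop : Continuous fun a : ℝ =>
        y + a • linRefl b i e)).tendsto 0).eventually (Ioi_mem_nhds (by simpa using hp))
    filter_upwards [c1, c2] with a x1 x2 _ using ⟨x1, x2⟩
  obtain ⟨ε, hε, hball⟩ := Metric.eventually_nhds_iff.1 hev
  obtain ⟨a, ⟨ha0, ha1⟩, ha⟩ : ∃ a, a ∈ Ioo (0 : ℝ) ε ∧ _ := by
    refine ((Filter.Frequently.and_eventually ?_ hv)).exists
    refine frequently_ae_iff.2 ?_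
    rw [show {a : ℝ | a ∈ Ioo 0 ε} = Ioo 0 ε from rfl, Real.volume_Ioo]
    simp [hε]
  obtain ⟨q, hq1, hq2⟩ := exists_rat_btwn (show a < a + ε by linarith)
  set x := y + (-a) • e with hx
  have hxe : b (i + 1) + L (Complex.measurableEquivRealProd.symm (v, a)) = x := by
    rw [hLa, hx, hy, sidePt, hD]
    simp [Complex.measurableEquivRealProd, sub_eq_add_neg, add_assoc]
  have hz : (x, θ) ∈ Phase b := by
    intro j
    rcases eq_or_ne j i with rfl | hj
    · rw [hx, coord_add_smul, coord_sidePt_self]; nlinarith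
    · exact (hball (by simp [abs_of_pos ha0, ha1]) j hj).1
  have htau : tau b i (x, θ) = a := by
    rw [tau, hx, coord_add_smul, coord_sidePt_self, ← he]
    field_simp [hl.ne]; ring
  have hpos : pos (x, θ) a = y := by simp [pos, hx, ← he]
  have hgood : Good b [i] (x, θ) 0 q := by
    refine ⟨hl, by rwa [htau], fun j hj => ?_, by rwa [htau], fun j => ?_⟩
    · rw [htau, hpos]; exact coord_sidePt_pos b i hv01 hj
    · have e1 : pos (fold1 b i (x, θ)) q = y + ((q : ℝ) - a) • linRefl b i e := by
        rw [pos_fold1, show pos (x, θ) q = y + ((q : ℝ) - a) • e by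
          rw [← hpos]; simp [pos, ← he, sub_smul], refl_add,
          refl_eq_self b i _ (coord_sidePt_self b i v), map_smul]
      rw [e1]
      rcases eq_or_ne j i with rfl | hj
      · rw [coord_add_smul, coord_sidePt_self, lin_linRefl]; nlinarith
      · exact (hball (by rw [Real.dist_eq, sub_zero, abs_of_pos (by linarith)]; linarith) j hj).2
  have hfin := ha
  simp only [mem_ofPred_eq, Function.comp_apply, hxe] at hfin
  have := hfin q (ha0.trans hq1) hz hgood
  rwa [htau, hpos] at this

/-- edge relation -/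
theorem edge_rel {F : ℂ × Dir → ℝ} (hF : Measurable F) (hE : Inv b F) (i : Fin 3) :
    ∀ᵐ θ : Dir, ∀ᵐ v : ℝ, v ∈ Ioo (0 : ℝ) 1 →
      prof b F θ (sc θ (sidePt b i v)) =
        prof b F (mirror b i θ) (sc (mirror b i θ) (sidePt b i v)) := by
  have h1 := edge_rel_aux b hF hE i
  filter_upwards [h1, (mp_mirror b i).quasiMeasurePreserving.ae h1,
    (countable_unitVec_level (lin b i) (lin_ne_zero b i) 0).ae_notMem (volume : Measure Dir)]
    with θ x y z
  rcases lt_or_gt_of_ne (show lin b i (unitVec θ) ≠ 0 from z) with h | h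
  · exact x h
  · rw [mirror_mirror] at y
    filter_upwards [y (by rw [unitVec_mirror, lin_linRefl]; linarith)] with v hv h01 using (hv h01).symm

end

end Vale.Agent.P099.Sym
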