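import Vale.Agent.P099.Sym.Area
import Vale.Agent.P099.Sym.Profile

/-! The two-direction divergence identity and its consequence: an invariant function whose
flux correlations are even vanishes. -/

namespace Vale.Agent.P099.Sym

open MeasureTheory Complex Set Filter Topology Vale.Agent.P099
open scoped RealInnerProductSpace

noncomputable section

attribute [-simp] Complex.real_smul

variable (b : AffineBasis (Fin 3) ℝ ℂ) (F : ℂ × Dir → ℝ)

/-- transverse primitive, normalised at vertex `k` -/
def primS (k : Fin 3) (θ : Dir) (s : ℝ) : ℝ := ∫ r in (sc θ (b k))..s, prof b F θ r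

/-- transverse primitive as a function of the position -/
def prim (k : Fin 3) (θ : Dir) (x : ℂ) : ℝ := primS b F k θ (sc θ x)

/-- flux through a side -/
def flux (i : Fin 3) (θ : Dir) : ℝ :=
  ∫ r in (sc θ (b (i + 1)))..(sc θ (b (i + 2))), prof b F θ r

/-- jump of the primitive at a side -/
def jump (k i : Fin 3) (η : Dir) : ℝ :=
  prim b F k η (b (i + 1)) + prim b F k (mirror b i η) (b (i + 1))

/-- edge term -/
def edgeTerm (k i : Fin 3) (u : ℝ) (θ : Dir) : ℝ :=
  edge (prof b F θ) (primS b F k (θ + (u : Dir)))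
    (sc θ (b (i + 1)), sc (θ + (u : Dir)) (b (i + 1)))
    (sc θ (b (i + 2)), sc (θ + (u : Dir)) (b (i + 2)))

/-- directional autocorrelation -/
def corr (u : ℝ) (θ : Dir) : ℝ :=
  ∫ x in Tri b, prof b F θ (sc θ x) * prof b F (θ + (u : Dir)) (sc (θ + (u : Dir)) x)

variable {b F}

lemma sidePt_one (i : Fin 3) : sidePt b i 1 = b (i + 2) := by
  simp [sidePt, sideVec]

lemma sidePt_zero (i : Fin 3) : sidePt b i 0 = b (i + 1) := by simp [sidePt]

lemma sc_sidePt (i : Fin 3) (θ : Dir) (v : ℝ) :
    sc θ (sidePt b i v) = sc θ (b (i + 1)) + v * sc θ (sideVec b i) := sc_add_smul ..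

lemma sc_vertex_sub (i : Fin 3) (θ : Dir) :
    sc θ (b (i + 2)) - sc θ (b (i + 1)) = sc θ (sideVec b i) := by
  simp [sc, sideVec, inner_sub_left]

lemma sc_mirror_sideVec (i : Fin 3) (θ : Dir) :
    sc (mirror b i θ) (sideVec b i) = -sc θ (sideVec b i) := by
  have h : I * unitVec (mirror b i θ) = -linRefl b i (I * unitVec θ) := by
    rw [unitVec_mirror, linRefl_apply, linRefl_apply, map_mul, Complex.conj_I]; ring
  rw [sc, sc, h, inner_neg_right]
  conv_lhs => rw [← linRefl_sideVec b i]
  rw [LinearIsometryEquiv.inner_map_map]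

lemma intervalIntegrable_prof (hF : Measurable F) {M : ℝ} (hM : ∀ z, |F z| ≤ M) (θ : Dir)
    (x y : ℝ) : IntervalIntegrable (prof b F θ) volume x y :=
  intervalIntegrable_bdd (measurable_prof_right b hF θ) (abs_prof_le b hF hM θ) x y

lemma primS_sub (hF : Measurable F) {M : ℝ} (hM : ∀ z, |F z| ≤ M) (k : Fin 3) (θ : Dir)
    (x y : ℝ) : primS b F k θ y - primS b F k θ x = ∫ r in x..y, prof b F θ r :=
  intervalIntegral.integral_interval_sub_left (intervalIntegrable_prof (b := b) hF hM θ _ _)
    (intervalIntegrable_prof (b := b) hF hM θ _ _)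

lemma flux_eq (hF : Measurable F) {M : ℝ} (hM : ∀ z, |F z| ≤ M) (k i : Fin 3) (θ : Dir) :
    flux b F i θ = prim b F k θ (b (i + 2)) - prim b F k θ (b (i + 1)) :=
  (primS_sub (b := b) hF hM k θ _ _).symm

lemma prim_sidePt_sub (hF : Measurable F) {M : ℝ} (hM : ∀ z, |F z| ≤ M) (k i : Fin 3) (θ : Dir)
    (v : ℝ) : prim b F k θ (sidePt b i v) - prim b F k θ (b (i + 1)) =
      sc θ (sideVec b i) * ∫ r in (0 : ℝ)..v, prof b F θ (sc θ (sidePt b i r)) := by
  rw [prim, prim, primS_sub (b := b) hF hM]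
  have e : (fun r => prof b F θ (sc θ (sidePt b i r))) =
      fun r => prof b F θ (sc θ (sideVec b i) * r + sc θ (b (i + 1))) := by
    funext r; rw [sc_sidePt]; ring_nf
  rw [e, intervalIntegral.mul_integral_comp_mul_add, sc_sidePt, mul_zero, zero_add]
  ring_nf

/-- the primitive reflects with a jump -/
theorem prim_reflect (hF : Measurable F) {M : ℝ} (hM : ∀ z, |F z| ≤ M) (hE : Inv b F)
    (k i : Fin 3) : ∀ᵐ θ : Dir, ∀ v ∈ Icc (0 : ℝ) 1,
      prim b F k (mirror b i θ) (sidePt b i v) =
        jump b F k i θ - prim b F k θ (sidePt b i v) := by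
  filter_upwards [edge_rel b hF hE i] with θ hθ v hv
  have h1 := prim_sidePt_sub (b := b) hF hM k i θ v
  have h2 := prim_sidePt_sub (b := b) hF hM k i (mirror b i θ) v
  rw [sc_mirror_sideVec] at h2
  have h3 : ∫ r in (0 : ℝ)..v, prof b F θ (sc θ (sidePt b i r)) =
      ∫ r in (0 : ℝ)..v, prof b F (mirror b i θ) (sc (mirror b i θ) (sidePt b i r)) := by
    refine intervalIntegral.integral_congr_ae ?_
    rw [uIoc_of_le hv.1]
    filter_upwards [hθ, (countable_singleton (1 : ℝ)).ae_notMem volume] with r hr h1r h01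
    exact hr ⟨h01.1, lt_of_le_of_ne (h01.2.trans hv.2) h1r⟩
  rw [← h3] at h2
  unfold jump
  linear_combination h1 + h2

lemma flux_mirror (hF : Measurable F) {M : ℝ} (hM : ∀ z, |F z| ≤ M) (hE : Inv b F) (i : Fin 3) :
    ∀ᵐ θ : Dir, flux b F i (mirror b i θ) = -flux b F i θ := by
  filter_upwards [prim_reflect hF hM hE i i] with θ h
  have h1 := h 1 ⟨zero_le_one, le_rfl⟩
  rw [sidePt_one] at h1
  rw [flux_eq (b := b) hF hM i, flux_eq (b := b) hF hM i, h1, jump]
  ring

lemma edgeTerm_eq (k i : Fin 3) (u : ℝ) (θ : Dir) :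
    edgeTerm b F k i u θ = sc θ (sideVec b i) * ∫ r in (0 : ℝ)..1,
      prof b F θ (sc θ (sidePt b i r)) * prim b F k (θ + (u : Dir)) (sidePt b i r) := by
  simp only [edgeTerm, edge, sc_vertex_sub, prim, sc_sidePt]

lemma edgeTerm_mirror (hF : Measurable F) {M : ℝ} (hM : ∀ z, |F z| ≤ M) (hE : Inv b F)
    (k i : Fin 3) (u : ℝ) : ∀ᵐ θ : Dir, edgeTerm b F k i u (mirror b i θ) =
      edgeTerm b F k i (-u) θ - flux b F i θ * jump b F k i (θ - (u : Dir)) := by
  filter_upwards [edge_rel b hF hE i, (measurePreserving_sub_right (volume : Measure Dir)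
    (u : Dir)).quasiMeasurePreserving.ae (prim_reflect hF hM hE k i)] with θ hθ hr
  have hadd : mirror b i θ + (u : Dir) = mirror b i (θ - (u : Dir)) := by
    rw [sub_eq_add_neg, mirror_add, sub_neg_eq_add]
  have hcont : Continuous fun r => prim b F k (θ - (u : Dir)) (sidePt b i r) :=
    (prim_continuous (measurable_prof_right b hF _) (abs_prof_le b hF hM _)
      (primS_sub (b := b) hF hM k _)).comp (by simp only [sc_sidePt]; fun_prop)
  have hgi : IntervalIntegrable (fun r => prof b F θ (sc θ (sidePt b i r))) volume 0 1 :=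
    intervalIntegrable_bdd ((measurable_prof_right b hF θ).comp
      (show Measurable fun r => sc θ (sidePt b i r) by simp only [sc_sidePt]; fun_prop))
      (fun r => abs_prof_le b hF hM θ _) 0 1
  have hfl : flux b F i θ = sc θ (sideVec b i) *
      ∫ r in (0 : ℝ)..1, prof b F θ (sc θ (sidePt b i r)) := by
    rw [← prim_sidePt_sub (b := b) hF hM k, sidePt_one, ← flux_eq (b := b) hF hM]
  rw [edgeTerm_eq, edgeTerm_eq, sc_mirror_sideVec, hadd, AddCircle.coe_neg, ← sub_eq_add_neg, hfl]
  have e : ∫ r in (0 : ℝ)..1, prof b F (mirror b i θ) (sc (mirror b i θ) (sidePt b i r)) *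
      prim b F k (mirror b i (θ - (u : Dir))) (sidePt b i r) =
      ∫ r in (0 : ℝ)..1, (jump b F k i (θ - (u : Dir)) * prof b F θ (sc θ (sidePt b i r)) -
        prof b F θ (sc θ (sidePt b i r)) * prim b F k (θ - (u : Dir)) (sidePt b i r)) := by
    refine intervalIntegral.integral_congr_ae ?_
    rw [uIoc_of_le zero_le_one]
    filter_upwards [hθ, (countable_singleton (1 : ℝ)).ae_notMem volume] with r hr' h1r h01
    rw [← hr' ⟨h01.1, lt_of_le_of_ne h01.2 h1r⟩, hr r ⟨h01.1.le, h01.2⟩]
    ring
  rw [e, intervalIntegral.integral_sub (hgi.const_mul _) (hgi.mul_continuousOn hcont.continuousOn),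
    intervalIntegral.integral_const_mul]
  ring

/-- coordinates of a point -/
def co (x : ℂ) : ℝ × ℝ := (x.re, x.im)

variable (b) in
/-- orientation -/
def ori : ℝ := cr (co (b 0)) (co (b 1)) (co (b 2))

lemma cr_co_vertex (i : Fin 3) (x : ℂ) :
    cr (co (b (i + 1))) (co (b (i + 2))) (co x) = b.coord i x * ori b := by
  have hx := b.linear_combination_coord_eq_self x
  have hs := b.sum_coord_apply_eq_one x
  rw [Fin.sum_univ_three] at hx hs
  have hre := congrArg Complex.re hx
  have him := congrArg Complex.im hx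
  simp only [Complex.add_re, Complex.add_im, Complex.smul_re, Complex.smul_im, smul_eq_mul]
    at hre him
  fin_cases i <;> simp only [co, cr, ori, Fin.reduceFinMk, Fin.reduceAdd] <;> rw [← hre, ← him]
  · linear_combination ((b 2).re * (b 1).im - (b 1).re * (b 2).im) * hs
  · linear_combination ((b 0).re * (b 2).im - (b 2).re * (b 0).im) * hs
  · linear_combination ((b 1).re * (b 0).im - (b 0).re * (b 1).im) * hs

lemma ori_ne_zero : ori b ≠ 0 := by
  intro h
  have hall : ∀ x : ℂ, cr (co (b 1)) (co (b 2)) (co x) = 0 := fun x => by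
    have := cr_co_vertex (b := b) 0 x
    simpa [h] using this
  have h1 := hall (b 1 + I)
  have h2 := hall (b 1 + 1)
  simp [cr, co] at h1 h2
  exact sideVec_ne_zero b 0 (Complex.ext (by simp [sideVec]; linarith) (by simp [sideVec]; linarith))

lemma mem_tri_iff (x : ℂ) : x ∈ Tri b ↔
    co x ∈ tri3 (co (b 0)) (co (b 1)) (co (b 2)) := by
  have key : ∀ i, (0 < ori b * cr (co (b (i + 1))) (co (b (i + 2))) (co x)) ↔ 0 < b.coord i x := by
    intro i
    rw [cr_co_vertex, show ori b * (b.coord i x * ori b) = ori b * ori b * b.coord i x by ring]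
    exact mul_pos_iff_of_pos_left (mul_self_pos.2 ori_ne_zero)
  constructor
  · intro h
    exact ⟨(key 2).2 (h 2), (key 0).2 (h 0), (key 1).2 (h 1)⟩
  · rintro ⟨h2, h0, h1⟩ i
    fin_cases i
    · exact (key 0).1 h0
    · exact (key 1).1 h1
    · exact (key 2).1 h2

/-- the map to the two transverse coordinates -/
def twoSc (θ η : Dir) : ℂ →ₗ[ℝ] ℂ where
  toFun x := ⟨sc θ x, sc η x⟩
  map_add' x y := by apply Complex.ext <;> simp [sc, inner_add_left]
  map_smul' r x := by
    apply Complex.ext <;> simp [sc, real_inner_smul_left, Complex.smul_re, Complex.smul_im]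

lemma det_twoSc (θ : Dir) (u : ℝ) :
    LinearMap.det (twoSc θ (θ + (u : Dir))) = Real.sin u := by
  rw [← LinearMap.det_toMatrix Complex.basisOneI, Matrix.det_fin_two]
  simp only [LinearMap.toMatrix_apply, Complex.coe_basisOneI, Complex.coe_basisOneI_repr,
    twoSc, LinearMap.coe_mk, AddHom.coe_mk, Matrix.cons_val_zero, Matrix.cons_val_one]
  have h := norm_unitVec θ
  rw [Complex.norm_def, Real.sqrt_eq_one, Complex.normSq_apply] at h
  simp [sc, unitVec_add, unitVec_coe, Complex.inner, Complex.mul_re, Complex.mul_im,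
    Complex.exp_ofReal_mul_I_re, Complex.exp_ofReal_mul_I_im]
  linear_combination (Real.sin u) * h

lemma cr_twoSc (θ η : Dir) (p q x : ℂ) :
    cr (co (twoSc θ η p)) (co (twoSc θ η q)) (co (twoSc θ η x)) =
      ((I * unitVec θ).re * (I * unitVec η).im - (I * unitVec θ).im * (I * unitVec η).re) *
        cr (co p) (co q) (co x) := by
  simp [cr, co, twoSc, sc, Complex.inner, Complex.mul_re, Complex.mul_im]
  ring

lemma turnFactor (θ : Dir) (u : ℝ) :
    (I * unitVec θ).re * (I * unitVec (θ + (u : Dir))).im -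
      (I * unitVec θ).im * (I * unitVec (θ + (u : Dir))).re = Real.sin u := by
  have h := norm_unitVec θ
  rw [Complex.norm_def, Real.sqrt_eq_one, Complex.normSq_apply] at h
  simp [unitVec_add, unitVec_coe, Complex.mul_re, Complex.mul_im,
    Complex.exp_ofReal_mul_I_re, Complex.exp_ofReal_mul_I_im]
  linear_combination (Real.sin u) * h

/-- the identity for one pair of directions -/
theorem corr_eq (hF : Measurable F) {M : ℝ} (hM : ∀ z, |F z| ≤ M) (k : Fin 3) {u : ℝ}
    (hu : Real.sin u ≠ 0) {θ : Dir} (hθ : ∀ i, sc θ (sideVec b i) ≠ 0) :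
    Real.sign (ori b) * Real.sin u * corr b F u θ = -∑ i, edgeTerm b F k i u θ := by
  set η := θ + (u : Dir)
  set L := twoSc θ η with hL
  set d := Real.sin u
  have hdet : LinearMap.det L = d := det_twoSc θ u
  set p : Fin 3 → ℝ × ℝ := fun i => co (L (b i)) with hp
  have hcr : ∀ i j x, cr (p i) (p j) (co (L x)) = d * cr (co (b i)) (co (b j)) (co x) := by
    intro i j x
    rw [hp, hL, cr_twoSc, turnFactor]
  have hdp : cr (p 0) (p 1) (p 2) = d * ori b := hcr 0 1 (b 2)
  have hpre : Tri b = L ⁻¹' (co ⁻¹' tri3 (p 0) (p 1) (p 2)) := by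
    ext x
    rw [mem_tri_iff, mem_preimage, mem_preimage]
    simp only [tri3, mem_ofPred_eq, hdp, hcr]
    have : ∀ c, (0 < d * ori b * (d * c)) ↔ (0 < ori b * c) := fun c => by
      rw [show d * ori b * (d * c) = d * d * (ori b * c) by ring]
      exact mul_pos_iff_of_pos_left (mul_self_pos.2 hu)
    simp only [this]
    rfl
  set g := prof b F θ
  set h := prof b F η
  have hgm := measurable_prof_right b hF θ
  have hhm := measurable_prof_right b hF η
  have hK : MeasurableSet (co ⁻¹' tri3 (p 0) (p 1) (p 2)) :=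
    (Complex.measurable_re.prodMk Complex.measurable_im) (measurableSet_tri3 _ _ _)
  have e1 : corr b F u θ = |d⁻¹| * ∫ q in tri3 (p 0) (p 1) (p 2), g q.1 * h q.2 := by
    have hf : AEStronglyMeasurable (fun y : ℂ => g y.re * h y.im) (Measure.map L volume) :=
      ((hgm.comp Complex.measurable_re).mul (hhm.comp Complex.measurable_im)).aestronglyMeasurable
    have hLm : Measurable L := (LinearMap.continuous_of_finiteDimensional L).measurable
    have := setIntegral_map hK hf hLm.aemeasurable
    rw [Measure.map_linearMap_addHaar_eq_smul_addHaar _ (by rwa [hdet]), hdet,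
      Measure.restrict_smul, integral_smul_measure, ENNReal.toReal_ofReal (abs_nonneg _),
      smul_eq_mul] at this
    rw [corr, hpre]
    refine this.symm.trans ?_
    rw [← (Complex.volume_preserving_equiv_real_prod.setIntegral_preimage_emb
      Complex.measurableEquivRealProd.measurableEmbedding (fun q : ℝ × ℝ => g q.1 * h q.2) _)]
    rfl
  have hne : ∀ i : Fin 3, (p (i + 1)).1 ≠ (p (i + 2)).1 := by
    intro i e
    exact hθ i (by rw [← sc_vertex_sub]; exact sub_eq_zero.2 e.symm)
  have hg := green (g := g) (h := h) (H := primS b F k η) hgm (abs_prof_le b hF hM θ) hhm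
    (abs_prof_le b hF hM η) (primS_sub (b := b) hF hM k η) (p₀ := p 0) (p₁ := p 1) (p₂ := p 2)
    (hne 2) (hne 0) (hne 1) (by rw [hdp]; exact mul_ne_zero hu ori_ne_zero)
  have hs : Real.sign (cr (p 0) (p 1) (p 2)) = Real.sign (ori b) * d * |d⁻¹| := by
    rw [hdp]
    rcases lt_or_gt_of_ne hu with h1 | h1 <;> rcases lt_or_gt_of_ne (ori_ne_zero (b := b)) with h2 | h2
    · rw [Real.sign_of_pos (mul_pos_of_neg_of_neg h1 h2), Real.sign_of_neg h2,
        abs_of_neg (inv_neg''.2 h1)]; field_simp
    · rw [Real.sign_of_neg (mul_neg_of_neg_of_pos h1 h2), Real.sign_of_pos h2,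
        abs_of_neg (inv_neg''.2 h1)]; field_simp
    · rw [Real.sign_of_neg (mul_neg_of_pos_of_neg h1 h2), Real.sign_of_neg h2,
        abs_of_pos (inv_pos.2 h1)]; field_simp
    · rw [Real.sign_of_pos (mul_pos h1 h2), Real.sign_of_pos h2, abs_of_pos (inv_pos.2 h1)]
      field_simp
  rw [hs] at hg
  rw [e1, Fin.sum_univ_three]
  refine (Eq.trans ?_ hg).trans ?_
  · ring
  · simp only [edgeTerm, Fin.reduceAdd]
    show -(edge g _ (p 0) (p 1) + edge g _ (p 1) (p 2) + edge g _ (p 2) (p 0)) = _
    simp only [hp, hL, co, twoSc, LinearMap.coe_mk, AddHom.coe_mk]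
    ring

end

end Vale.Agent.P099.Sym
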