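import Vale.Agent.P099.Sym.Zero

/-! Symmetries of the flow in right and in isosceles triangles, and the vanishing of the
antisymmetric invariant functions. -/

namespace Vale.Agent.P099.Sym

open MeasureTheory Complex Set Filter Topology Vale.Agent.P099
open scoped RealInnerProductSpace

noncomputable section

attribute [-simp] Complex.real_smul

variable (b : AffineBasis (Fin 3) ℝ ℂ)

/-- swap the vertices 1 and 2 -/
def swp (i : Fin 3) : Fin 3 := -i

lemma swp_facts : ∀ i : Fin 3, swp (i + 1) = swp i + 2 ∧ swp (i + 2) = swp i + 1 ∧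
    swp (swp i) = i ∧ swp i + 1 ≠ swp i ∧ swp i + 2 ≠ swp i := by decide

/-- reflection in the axis through vertex 0 orthogonal to side 0 -/
def axisRefl (x : ℂ) : ℂ := b 0 - linRefl b 0 (x - b 0)

/-- the mirror symmetry of phase space -/
def mirMap (z : ℂ × Dir) : ℂ × Dir := (axisRefl b z.1, mirror b 0 z.2 + halfTurn)

/-- mirror symmetry composed with reversal -/
def flipMap (z : ℂ × Dir) : ℂ × Dir := (axisRefl b z.1, mirror b 0 z.2)

lemma flipMap_eq (z : ℂ × Dir) : flipMap b z = turn (mirMap b z) := by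
  simp [flipMap, mirMap, turn, add_assoc, halfTurn_add_halfTurn]

lemma axisRefl_sub (x y : ℂ) : axisRefl b x - axisRefl b y = -linRefl b 0 (x - y) := by
  simp only [axisRefl, show x - b 0 = (x - y) + (y - b 0) by ring, LinearIsometryEquiv.map_add]
  ring

lemma axisRefl_add (x v : ℂ) : axisRefl b (x + v) = axisRefl b x - linRefl b 0 v := by
  have := axisRefl_sub b (x + v) x
  rw [add_sub_cancel_left] at this
  linear_combination this

lemma axisRefl_axisRefl (x : ℂ) : axisRefl b (axisRefl b x) = x := by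
  simp only [axisRefl, sub_sub_cancel_left, map_neg, linRefl_linRefl]; ring

lemma flipMap_flipMap (z : ℂ × Dir) : flipMap b (flipMap b z) = z := by
  simp [flipMap, axisRefl_axisRefl, mirror_mirror]

lemma mp_axisRefl : MeasurePreserving (axisRefl b) (volume : Measure ℂ) volume :=
  (Measure.measurePreserving_sub_left (volume : Measure ℂ) (b 0)).comp
    ((linRefl b 0).measurePreserving.comp (measurePreserving_sub_right (volume : Measure ℂ) (b 0)))

lemma mp_mirMap : MeasurePreserving (mirMap b) (volume : Measure (ℂ × Dir)) volume := by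
  rw [Measure.volume_eq_prod]
  exact (mp_axisRefl b).prod
    ((measurePreserving_add_right (volume : Measure Dir) halfTurn).comp (mp_mirror b 0))

lemma mp_flipMap : MeasurePreserving (flipMap b) (volume : Measure (ℂ × Dir)) volume := by
  rw [Measure.volume_eq_prod]
  exact (mp_axisRefl b).prod (mp_mirror b 0)

lemma unitVec_mirMap (z : ℂ × Dir) :
    unitVec (mirMap b z).2 = -linRefl b 0 (unitVec z.2) := by
  simp [mirMap, unitVec_add_halfTurn, unitVec_mirror]

variable {b}

section Iso

variable (hiso : ‖b 1 - b 0‖ = ‖b 2 - b 0‖)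

include hiso

lemma linRefl_leg : linRefl b 0 (b 1 - b 0) = -(b 2 - b 0) := by
  set m : ℂ := (1 / 2 : ℝ) • ((b 1 - b 0) + (b 2 - b 0)) with hm
  have hsv : sideVec b 0 = (b 2 - b 0) - (b 1 - b 0) := by simp [sideVec]
  have horth : ⟪m, sideVec b 0⟫ = 0 := by
    rw [hm, hsv, real_inner_smul_left, add_comm (b 1 - b 0), (real_inner_add_sub_eq_zero_iff _ _).2
      hiso.symm, mul_zero]
  obtain ⟨r, s, hrs⟩ := exists_decomp b 0 m
  have hI : ⟪I * sideVec b 0, sideVec b 0⟫ = 0 := by
    simp [Complex.inner, Complex.mul_re, Complex.mul_im]; ring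
  rw [hrs, inner_add_left, real_inner_smul_left, real_inner_smul_left, hI, mul_zero, add_zero] at horth
  have hr : r = 0 := (mul_eq_zero.1 horth).resolve_right
    (inner_self_ne_zero.2 (sideVec_ne_zero b 0))
  rw [hr, zero_smul, zero_add] at hrs
  have hLm : linRefl b 0 m = -m := by rw [hrs, map_smul, linRefl_I_sideVec, smul_neg]
  have e : b 1 - b 0 = m + (-(1 / 2) : ℝ) • sideVec b 0 := by
    simp only [hm, hsv, Complex.real_smul]; push_cast; ring
  rw [e, LinearIsometryEquiv.map_add, hLm, map_smul, linRefl_sideVec]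
  simp only [hm, hsv, Complex.real_smul]; push_cast; ring

lemma axisRefl_vertex (j : Fin 3) : axisRefl b (b j) = b (swp j) := by
  have h := linRefl_leg hiso
  have h' : linRefl b 0 (b 2 - b 0) = -(b 1 - b 0) := by
    have := congrArg (linRefl b 0) h
    rw [linRefl_linRefl, map_neg] at this
    rw [this, neg_neg]
  fin_cases j
  · simp [axisRefl, swp]
  · show axisRefl b (b 1) = b 2
    rw [axisRefl, h]; ring
  · show axisRefl b (b 2) = b 1
    rw [axisRefl, h']; ring

lemma coord_axisRefl (j : Fin 3) (x : ℂ) :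
    b.coord (swp j) (axisRefl b x) = b.coord j x := by
  have hx := b.linear_combination_coord_eq_self x
  have hs := b.sum_coord_apply_eq_one x
  rw [Fin.sum_univ_three] at hx hs
  set c0 := b.coord 0 x
  set c1 := b.coord 1 x
  set c2 := b.coord 2 x
  have hd : x - b 0 = c1 • (b 1 - b 0) + c2 • (b 2 - b 0) := by
    have h0 : c0 = 1 - c1 - c2 := by linarith
    rw [← hx, h0]
    simp only [Complex.real_smul]; push_cast; ring
  have h1 := linRefl_leg hiso
  have h2 : linRefl b 0 (b 2 - b 0) = -(b 1 - b 0) := by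
    have := congrArg (linRefl b 0) h1
    rw [linRefl_linRefl, map_neg] at this
    rw [this, neg_neg]
  have hS : axisRefl b x = b 0 + (c1 • (b 2 - b 0) + c2 • (b 1 - b 0)) := by
    rw [axisRefl, hd, LinearIsometryEquiv.map_add, map_smul, map_smul, h1, h2]
    simp only [smul_neg]; ring
  have hl : ∀ i k : Fin 3, lin b i (b k - b 0) = b.coord i (b k) - b.coord i (b 0) := fun i k => by
    rw [coord_eq b i (b k) (b 0)]; ring
  rw [hS, coord_eq b (swp j) _ (b 0), add_sub_cancel_left, map_add, map_smul, map_smul, hl, hl]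
  fin_cases j <;> simp [swp, b.coord_apply, c0, c1, c2, show (-1 : Fin 3) = 2 from rfl,
    show (-2 : Fin 3) = 1 from rfl] <;> linarith

lemma linRefl_axis (i : Fin 3) (v : ℂ) :
    linRefl b (swp i) (-linRefl b 0 v) = -linRefl b 0 (linRefl b i v) := by
  have hsv : -linRefl b 0 (sideVec b i) = -sideVec b (swp i) := by
    rw [sideVec, ← axisRefl_sub, axisRefl_vertex hiso, axisRefl_vertex hiso, sideVec,
      (swp_facts i).1, (swp_facts i).2.1]
    ring
  have hI : ∀ w, -linRefl b 0 (I * w) = -I * (-linRefl b 0 w) := by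
    intro w; rw [linRefl_apply, linRefl_apply, map_mul, Complex.conj_I]; ring
  obtain ⟨r, s, rfl⟩ := exists_decomp b i v
  have hT : ∀ p q : ℝ, -linRefl b 0 (p • sideVec b i + q • (I * sideVec b i)) =
      p • -sideVec b (swp i) + q • (I * sideVec b (swp i)) := by
    intro p q
    rw [LinearIsometryEquiv.map_add, map_smul, map_smul, neg_add, ← smul_neg, ← smul_neg, hI, hsv]
    ring_nf
  rw [hT, LinearIsometryEquiv.map_add, map_smul, map_smul, map_neg,
    linRefl_sideVec, linRefl_I_sideVec, LinearIsometryEquiv.map_add (linRefl b i), map_smul,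
    map_smul, linRefl_sideVec, linRefl_I_sideVec,
    show s • -(I * sideVec b i) = (-s) • (I * sideVec b i) by simp, hT]
  simp only [Complex.real_smul]; push_cast; ring

lemma fold1_mirMap (i : Fin 3) (z : ℂ × Dir) :
    fold1 b (swp i) (mirMap b z) = mirMap b (fold1 b i z) := by
  refine Prod.ext ?_ (injective_unitVec ?_)
  · show refl b (swp i) (axisRefl b z.1) = axisRefl b (refl b i z.1)
    have e1 : axisRefl b z.1 = b (swp i + 2) + -linRefl b 0 (z.1 - b (i + 1)) := by
      rw [← axisRefl_sub, axisRefl_vertex hiso, (swp_facts i).1]; ring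
    rw [e1, refl_add, refl_eq_self b _ _ (b.coord_apply_ne (swp_facts i).2.2.2.2.symm),
      linRefl_axis hiso, ← (swp_facts i).1, ← axisRefl_vertex hiso, ← sub_eq_add_neg,
      ← axisRefl_add]
    rfl
  · show unitVec (mirror b (swp i) (mirMap b z).2) = unitVec (mirMap b (fold1 b i z)).2
    rw [unitVec_mirror, unitVec_mirMap, unitVec_mirMap, linRefl_axis hiso]
    simp [fold1, unitVec_mirror]

lemma pos_mirMap (z : ℂ × Dir) (s : ℝ) : pos (mirMap b z) s = axisRefl b (pos z s) := by
  rw [pos, pos, axisRefl_add, map_smul, unitVec_mirMap, smul_neg]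
  rfl

lemma lin_mirMap (i : Fin 3) (z : ℂ × Dir) :
    lin b (swp i) (unitVec (mirMap b z).2) = lin b i (unitVec z.2) := by
  have h1 := coord_pos_sub b (swp i) (mirMap b z) 1 0
  have h2 := coord_pos_sub b i z 1 0
  rw [pos_mirMap hiso, pos_mirMap hiso, coord_axisRefl hiso, coord_axisRefl hiso, h2] at h1
  linarith

lemma tau_mirMap (i : Fin 3) (z : ℂ × Dir) : tau b (swp i) (mirMap b z) = tau b i z := by
  rw [tau, tau, lin_mirMap hiso]
  show -b.coord (swp i) (axisRefl b z.1) / _ = _
  rw [coord_axisRefl hiso]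

lemma mem_tri_axisRefl {x : ℂ} (hx : x ∈ Tri b) : axisRefl b x ∈ Tri b := fun j => by
  rw [← (swp_facts j).2.2.1, coord_axisRefl hiso]; exact hx _

lemma Good.mirMap' {w : List (Fin 3)} {z : ℂ × Dir} {a t : ℝ} (h : Good b w z a t) :
    Good b (w.map swp) (mirMap b z) a t := by
  induction w generalizing z a with
  | nil => exact ⟨h.1, by rw [pos_mirMap hiso]; exact mem_tri_axisRefl hiso h.2⟩
  | cons i w ih =>
    obtain ⟨hl, ha, ho, hg⟩ := h
    refine ⟨by rwa [lin_mirMap hiso], by rwa [tau_mirMap hiso], fun j hj => ?_, ?_⟩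
    · rw [tau_mirMap hiso, pos_mirMap hiso, ← (swp_facts j).2.2.1, coord_axisRefl hiso]
      exact ho _ fun h => hj (by rw [← h, (swp_facts j).2.2.1])
    · rw [tau_mirMap hiso, fold1_mirMap hiso]; exact ih hg

lemma fold_mirMap (w : List (Fin 3)) (z : ℂ × Dir) :
    fold b (w.map swp) (mirMap b z) = mirMap b (fold b w z) := by
  induction w generalizing z with
  | nil => rfl
  | cons i w ih => rw [List.map_cons, fold_cons, fold_cons, fold1_mirMap hiso, ih]

lemma inv_mirMap {h : ℂ × Dir → ℝ} (hE : Inv b h) : Inv b fun z => h (mirMap b z) := by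
  intro t ht w
  filter_upwards [(mp_mirMap b).quasiMeasurePreserving.ae (hE t ht (w.map swp))] with z hz h0 hg
  have h1 := hz (mem_tri_axisRefl hiso h0) (Good.mirMap' hiso hg)
  have e : endState b (w.map swp) t (mirMap b z) = mirMap b (endState b w t z) := by
    simp only [endState, fold_mirMap hiso, pos_mirMap hiso]; rfl
  rwa [e] at h1

end Iso

lemma inv_turn {h : ℂ × Dir → ℝ} (hE : Inv b h) : Inv b fun z => h (turn z) := by
  intro t ht w
  filter_upwards [(mp_turn.comp (mp_endState b w t)).quasiMeasurePreserving.ae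
    (hE t ht w.reverse)] with z hz h0 hg
  have := hz hg.end_mem (hg.reverse b h0)
  simp only [Function.comp_apply, endState_reverse] at this
  exact this.symm

lemma Inv.sub {f g : ℂ × Dir → ℝ} (hf : Inv b f) (hg : Inv b g) :
    Inv b fun z => f z - g z := by
  intro t ht w
  filter_upwards [hf t ht w, hg t ht w] with z h1 h2 h0 hgd
  rw [h1 h0 hgd, h2 h0 hgd]

lemma inner_sideVec_I (i : Fin 3) : ⟪sideVec b i, I * sideVec b i⟫ = 0 := by
  simp [Complex.inner, Complex.mul_re, Complex.mul_im]; ring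

variable {F : ℂ × Dir → ℝ}

section Odd

variable (hodd : ∀ x θ, F (x, θ + halfTurn) = -F (x, θ))

lemma sc_halfTurn (θ : Dir) (x : ℂ) : sc (θ + halfTurn) x = -sc θ x := by
  simp [sc, unitVec_add_halfTurn]

include hodd

lemma prof_halfTurn (θ : Dir) (s : ℝ) : prof b F (θ + halfTurn) (-s) = -prof b F θ s := by
  have hp : ∀ r, pt (θ + halfTurn) (-s) r = pt θ s (-r) := fun r => by
    simp [pt, unitVec_add_halfTurn, smul_neg, neg_smul]
  have h1 : ∀ G : ℂ → ℝ, ∫ r, (Tri b).indicator G (pt (θ + halfTurn) (-s) r) =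
      ∫ r, (Tri b).indicator G (pt θ s r) := fun G => by
    simp only [hp]; exact integral_neg_eq_self (fun r => (Tri b).indicator G (pt θ s r)) volume
  have hind : (fun r => (Tri b).indicator (fun x => F (x, θ + halfTurn)) (pt θ s r)) =
      fun r => -(Tri b).indicator (fun x => F (x, θ)) (pt θ s r) := by
    funext r
    by_cases h : pt θ s r ∈ Tri b <;> simp [h, hodd]
  unfold prof num
  rw [h1, h1, hind, integral_neg, neg_div]

lemma prim_halfTurn (k : Fin 3) (θ : Dir) (x : ℂ) :
    prim b F k (θ + halfTurn) x = prim b F k θ x := by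
  have h : ∀ r, prof b F (θ + halfTurn) r = -prof b F θ (-r) := fun r => by
    conv_lhs => rw [← neg_neg r]
    rw [prof_halfTurn hodd]
  simp only [prim, primS, sc_halfTurn, h, intervalIntegral.integral_neg,
    intervalIntegral.integral_comp_neg, neg_neg]
  exact (intervalIntegral.integral_symm _ _).symm

end Odd

section Flipped

variable (hflip : ∀ z, F (flipMap b z) = -F z) (hiso : ‖b 1 - b 0‖ = ‖b 2 - b 0‖)

include hiso hflip

lemma prim_flip (θ : Dir) (x : ℂ) :
    prim b F 0 (mirror b 0 θ) (axisRefl b x) = -prim b F 0 θ x := by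
  set R := mirror b 0 θ
  have hs : ∀ y, sc R (axisRefl b y) = sc θ y + (sc R (b 0) - sc θ (b 0)) := by
    intro y
    have h : I * unitVec R = -linRefl b 0 (I * unitVec θ) := by
      rw [unitVec_mirror, linRefl_apply, linRefl_apply, map_mul, Complex.conj_I]; ring
    simp only [axisRefl, sc, h, inner_sub_left, inner_neg_right, LinearIsometryEquiv.inner_map_map]
    ring
  have hl : ∀ y, lc R (axisRefl b y) = (lc R (b 0) + lc θ (b 0)) - lc θ y := by
    intro y
    simp only [axisRefl, lc, R, unitVec_mirror, inner_sub_left, LinearIsometryEquiv.inner_map_map]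
    ring
  set κ := sc R (b 0) - sc θ (b 0) with hκ
  set ρ := lc R (b 0) + lc θ (b 0)
  have hp : ∀ s r, pt R (s + κ) (ρ - r) = axisRefl b (pt θ s r) := by
    intro s r
    conv_rhs => rw [← pt_sc_lc R (axisRefl b _), hs, hl, sc_pt, lc_pt]
  have hi : ∀ y, axisRefl b y ∈ Tri b ↔ y ∈ Tri b := fun y =>
    ⟨fun h => by rw [← axisRefl_axisRefl b y]; exact mem_tri_axisRefl hiso h,
      fun h => mem_tri_axisRefl hiso h⟩
  have h1 : ∀ (G : ℂ → ℝ) (s : ℝ), ∫ r, (Tri b).indicator G (pt R (s + κ) r) =
      ∫ r, (Tri b).indicator (fun y => G (axisRefl b y)) (pt θ s r) := by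
    intro G s
    rw [← integral_sub_left_eq_self (fun r => (Tri b).indicator G (pt R (s + κ) r)) volume ρ]
    refine integral_congr_ae (ae_of_all _ fun r => ?_)
    simp only [hp]
    by_cases h : pt θ s r ∈ Tri b <;> simp [h, hi]
  have hprof : ∀ s, prof b F R (s + κ) = -prof b F θ s := by
    intro s
    have hind : (fun r => (Tri b).indicator (fun y => F (axisRefl b y, R)) (pt θ s r)) =
        fun r => -(Tri b).indicator (fun y => F (y, θ)) (pt θ s r) := by
      funext r
      by_cases h : pt θ s r ∈ Tri b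
      · simpa [h, flipMap, R] using hflip (pt θ s r, θ)
      · simp [h]
    unfold prof num
    rw [h1, h1, hind, integral_neg, neg_div]
  simp only [prim, primS]
  rw [hs, show sc R (b 0) = sc θ (b 0) + κ by rw [hκ]; ring,
    ← intervalIntegral.integral_comp_add_right (prof b F R) κ, ← intervalIntegral.integral_neg]
  simp only [hprof]

end Flipped

lemma prim_base (k : Fin 3) (θ : Dir) : prim b F k θ (b k) = 0 :=
  intervalIntegral.integral_same

lemma jump_two (η : Dir) : jump b F 0 2 η = 0 := by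
  simp [jump, show ((2 : Fin 3) + 1) = 0 from rfl, prim_base]

lemma jump_one (hF : Measurable F) {M : ℝ} (hM : ∀ z, |F z| ≤ M) (hE : Inv b F) :
    ∀ᵐ η : Dir, jump b F 0 1 η = 0 := by
  filter_upwards [prim_reflect hF hM hE 0 1] with η h
  have h1 := h 1 ⟨zero_le_one, le_rfl⟩
  rw [sidePt_one, show ((1 : Fin 3) + 2) = 0 from rfl, prim_base, prim_base, sub_zero] at h1
  exact h1.symm

lemma sum_reduce (hF : Measurable F) {M : ℝ} (hM : ∀ z, |F z| ≤ M) (hE : Inv b F) (u : ℝ) :
    ∑ i, ∫ θ : Dir, flux b F i θ * jump b F 0 i (θ - (u : Dir)) =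
      ∫ θ : Dir, flux b F 0 θ * jump b F 0 0 (θ - (u : Dir)) := by
  rw [Fin.sum_univ_three]
  have h1 : ∫ θ : Dir, flux b F 1 θ * jump b F 0 1 (θ - (u : Dir)) = 0 := by
    refine integral_eq_zero_of_ae ?_
    filter_upwards [(measurePreserving_sub_right (volume : Measure Dir)
      (u : Dir)).quasiMeasurePreserving.ae (jump_one hF hM hE)] with θ h
    simp [h]
  rw [h1]
  simp [jump_two]

/-- In a right triangle, an invariant function odd under reversal vanishes. -/
theorem odd_zero (hF : Measurable F) {M : ℝ} (hM : ∀ z, |F z| ≤ M) (hE : Inv b F)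
    (hodd : ∀ x θ, F (x, θ + halfTurn) = -F (x, θ))
    (hperp : ⟪b 1 - b 0, b 2 - b 0⟫ = 0) :
    ∀ᵐ z : ℂ × Dir, z ∈ Phase b → F z = 0 := by
  refine ae_zero_of_even_correlation hF hM hE 0 fun u => ?_
  rw [sum_reduce hF hM hE u]
  have hmir : ∀ θ, mirror b 1 θ = mirror b 2 θ + halfTurn := by
    intro θ
    apply injective_unitVec
    rw [unitVec_add_halfTurn, unitVec_mirror, unitVec_mirror]
    obtain ⟨r, s, hrs⟩ := exists_decomp b 2 (sideVec b 1)
    have h12 : ⟪sideVec b 1, sideVec b 2⟫ = 0 := by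
      rw [show sideVec b 1 = -(b 2 - b 0) by simp [sideVec], show sideVec b 2 = b 1 - b 0 from rfl,
        inner_neg_left, real_inner_comm, hperp, neg_zero]
    rw [hrs, inner_add_left, real_inner_smul_left, real_inner_smul_left,
      real_inner_comm (sideVec b 2) (I * sideVec b 2), inner_sideVec_I, mul_zero, add_zero] at h12
    have hr : r = 0 := (mul_eq_zero.1 h12).resolve_right
      (inner_self_ne_zero.2 (sideVec_ne_zero b 2))
    rw [hr, zero_smul, zero_add] at hrs
    have hs : s ≠ 0 := by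
      intro h; rw [h, zero_smul] at hrs; exact sideVec_ne_zero b 1 hrs
    have e1 := linRefl_sideVec b 1
    have e2 := linRefl_sideVec b 2
    rw [linRefl_apply] at e1 e2
    rw [hrs] at e1
    simp only [Complex.real_smul, map_mul, Complex.conj_ofReal, Complex.conj_I] at e1
    have e3 : (mirrorRot b 1 : ℂ) = -(mirrorRot b 2 : ℂ) := by
      have hc : (starRingEnd ℂ) (sideVec b 2) ≠ 0 := by simpa using sideVec_ne_zero b 2
      have hsC : (s : ℂ) * I ≠ 0 := mul_ne_zero (by exact_mod_cast hs) I_ne_zero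
      apply mul_left_cancel₀ (mul_ne_zero hsC hc)
      linear_combination -e1 + (s : ℂ) * I * e2
    rw [linRefl_apply, linRefl_apply, e3]; ring
  set c1 : Dir → ℝ := fun θ => prim b F 0 θ (b 1) with hc1
  set c2 : Dir → ℝ := fun θ => prim b F 0 θ (b 2) with hc2
  have hfl : ∀ θ, flux b F 0 θ = c2 θ - c1 θ := fun θ => flux_eq hF hM 0 0 θ
  have r2 : ∀ᵐ θ : Dir, c1 (mirror b 2 θ) = -c1 θ := by
    filter_upwards [prim_reflect hF hM hE 0 2] with θ h
    have h1 := h 1 ⟨zero_le_one, le_rfl⟩
    rw [sidePt_one, jump_two, zero_sub] at h1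
    exact h1
  have r1 : ∀ᵐ θ : Dir, c2 (mirror b 1 θ) = -c2 θ := by
    filter_upwards [prim_reflect hF hM hE 0 1, jump_one hF hM hE] with θ h hj
    have h1 := h 0 ⟨le_rfl, zero_le_one⟩
    rw [sidePt_zero, hj, zero_sub] at h1
    exact h1
  have r12 : ∀ᵐ θ : Dir, flux b F 0 (mirror b 2 θ) = -flux b F 0 θ := by
    filter_upwards [r1, r2] with θ h1 h2
    rw [hfl, hfl, h2]
    simp only [hc2, hmir, prim_halfTurn hodd] at h1
    simp only [hc2]
    rw [h1]; ring
  have r0 := flux_mirror hF hM hE (0 : Fin 3)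
  set f : Dir → ℝ := fun θ => flux b F 0 θ * c1 (θ - (u : Dir)) with hf
  set g : Dir → ℝ := fun θ => flux b F 0 θ * c1 (mirror b 0 (θ - (u : Dir))) with hg
  have hjump : ∀ θ, flux b F 0 θ * jump b F 0 0 (θ - (u : Dir)) = f θ + g θ := fun θ => by
    simp only [jump, hf, hg, hc1, zero_add, mul_add]
  have hB : ∀ θ x, |prim b F 0 θ x| ≤ M * (‖x‖ + ‖b 0‖) := fun θ x => abs_prim_le hF hM 0 θ x
  have hl := measurable_prim_left (b := b) hF hM 0
  have hs : Measurable fun θ : Dir => θ - (u : Dir) := measurable_id.sub_const _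
  have hflm : Measurable (flux b F 0) := by
    rw [funext hfl]; exact (hl _).sub (hl _)
  have hflb : ∀ θ, |flux b F 0 θ| ≤ M * (‖b 2‖ + ‖b 0‖) + M * (‖b 1‖ + ‖b 0‖) := fun θ => by
    rw [hfl]; exact (abs_sub _ _).trans (add_le_add (hB _ _) (hB _ _))
  have hfi : Integrable f := integrable_dir (hflm.mul ((hl (b 1)).comp hs))
    fun θ => by
      rw [hf, abs_mul]
      exact mul_le_mul (hflb θ) (hB _ _) (abs_nonneg _) ((abs_nonneg _).trans (hflb θ))
  have hgi : Integrable g := integrable_dir
    (hflm.mul ((hl (b 1)).comp ((mp_mirror b 0).measurable.comp hs)))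
    fun θ => by
      rw [hg, abs_mul]
      exact mul_le_mul (hflb θ) (hB _ _) (abs_nonneg _) ((abs_nonneg _).trans (hflb θ))
  simp only [hjump]
  rw [integral_add hfi hgi]
  have hneg : ∫ θ : Dir, g θ = -∫ θ : Dir, f θ := by
    rw [← integral_sub_left_eq_self g (volume : Measure Dir)
        ((2 * Complex.arg (sideVec b 0) : ℝ) : Dir),
      ← integral_sub_left_eq_self (fun θ => g (((2 * Complex.arg (sideVec b 0) : ℝ) : Dir) - θ))
        (volume : Measure Dir) ((2 * Complex.arg (sideVec b 2) : ℝ) : Dir), ← integral_neg]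
    refine integral_congr_ae ?_
    filter_upwards [r12, (mp_mirror b 2).quasiMeasurePreserving.ae r0,
      (measurePreserving_sub_right (volume : Measure Dir) (u : Dir)).quasiMeasurePreserving.ae r2]
      with θ h12 h0 h2
    show g (mirror b 0 (mirror b 2 θ)) = -f θ
    have e1 : mirror b 0 (mirror b 0 (mirror b 2 θ) - (u : Dir)) =
        mirror b 2 (θ - (u : Dir)) := by
      have : mirror b 0 (mirror b 0 (mirror b 2 θ) - (u : Dir)) = mirror b 2 θ + (u : Dir) := by
        rw [sub_eq_add_neg, mirror_add, mirror_mirror, sub_neg_eq_add]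
      rw [this, sub_eq_add_neg θ, mirror_add, sub_neg_eq_add]
    simp only [hg, hf, e1, h2, h0, h12]
    ring
  rw [hneg]; ring

/-- In an isosceles triangle, an invariant function odd under mirrored reversal vanishes. -/
theorem flip_zero (hF : Measurable F) {M : ℝ} (hM : ∀ z, |F z| ≤ M) (hE : Inv b F)
    (hflip : ∀ z, F (flipMap b z) = -F z) (hiso : ‖b 1 - b 0‖ = ‖b 2 - b 0‖) :
    ∀ᵐ z : ℂ × Dir, z ∈ Phase b → F z = 0 := by
  refine ae_zero_of_even_correlation hF hM hE 0 fun u => ?_
  rw [sum_reduce hF hM hE u]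
  refine integral_eq_zero_of_ae ?_
  filter_upwards [flux_mirror hF hM hE (0 : Fin 3)] with θ h
  have h1 := prim_flip hflip hiso θ (b 1)
  have h2 := prim_flip hflip hiso θ (b 2)
  rw [axisRefl_vertex hiso] at h1 h2
  rw [flux_eq hF hM 0, flux_eq hF hM 0] at h
  simp only [zero_add, show swp (1 : Fin 3) = 2 from rfl, show swp (2 : Fin 3) = 1 from rfl] at h h1 h2
  rw [h1, h2] at h
  have : flux b F 0 θ = 0 := by rw [flux_eq hF hM 0]; simp only [zero_add]; linarith
  simp [this]

end

end Vale.Agent.P099.Sym
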