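import Vale.Agent.P099.Main
import Vale.Agent.P099.Sym.Flip

/-! Reversal symmetry of arbitrary invariant functions in right and isosceles triangles. -/

namespace Vale.Agent.P099.Sym

open MeasureTheory Complex Set Filter Topology Vale.Agent.P099
open scoped RealInnerProductSpace

noncomputable section

attribute [-simp] Complex.real_smul

variable {b : AffineBasis (Fin 3) ℝ ℂ}

/-- invariance passes from all level sets to the function -/
lemma symm_of_levels {τ : ℂ × Dir → ℂ × Dir} {F : ℂ × Dir → ℝ} (hF : Measurable F) (hE : Inv b F)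
    (key : ∀ h : ℂ × Dir → ℝ, Measurable h → Inv b h → (∀ z, |h z| ≤ 1) →
      ∀ᵐ z : ℂ × Dir, z ∈ Phase b → h (τ z) = h z) :
    ∀ᵐ z : ℂ × Dir, z ∈ Phase b → F (τ z) = F z := by
  have h : ∀ q : ℚ, ∀ᵐ z : ℂ × Dir, z ∈ Phase b → ((q : ℝ) < F (τ z) ↔ (q : ℝ) < F z) := by
    intro q
    let g : ℂ × Dir → ℝ := fun z => if (q : ℝ) < F z then 1 else 0
    have hgm : Measurable g :=
      Measurable.ite (measurableSet_lt measurable_const hF) measurable_const measurable_const
    have hgE : Inv b g := by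
      intro t ht w
      filter_upwards [hE t ht w] with z hz h0 hg
      simp only [g, hz h0 hg]
    filter_upwards [key g hgm hgE fun z => by simp only [g]; split_ifs <;> simp] with z hz h0
    have := hz h0
    simp only [g] at this
    split_ifs at this with h1 h2 h2 <;>
      first | exact iff_of_true h1 h2 | exact iff_of_false h1 h2 | norm_num at this
  filter_upwards [ae_all_iff.2 h] with z hz h0
  rcases lt_trichotomy (F (τ z)) (F z) with h1 | h1 | h1
  · obtain ⟨q, hq1, hq2⟩ := exists_rat_btwn h1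
    exact absurd ((hz q h0).2 hq2) (not_lt.2 hq1.le)
  · exact h1
  · obtain ⟨q, hq1, hq2⟩ := exists_rat_btwn h1
    exact absurd ((hz q h0).1 hq2) (not_lt.2 hq1.le)

/-- right triangle: every invariant function is even under reversal -/
theorem turn_symm {F : ℂ × Dir → ℝ} (hF : Measurable F) (hE : Inv b F)
    (hperp : ⟪b 1 - b 0, b 2 - b 0⟫ = 0) :
    ∀ᵐ z : ℂ × Dir, z ∈ Phase b → F (turn z) = F z := by
  refine symm_of_levels hF hE fun h hm hi hb => ?_
  set G : ℂ × Dir → ℝ := fun z => h z - h (turn z) with hG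
  filter_upwards [odd_zero (b := b) (F := G) (M := 2) (hm.sub (hm.comp mp_turn.measurable))
    (fun z => (abs_sub _ _).trans (by linarith [hb z, hb (turn z)])) (hi.sub (inv_turn hi))
    (fun x θ => by
      simp only [hG, turn, add_assoc, halfTurn_add_halfTurn, add_zero]; ring) hperp] with z hz h0
  exact (sub_eq_zero.1 (hz h0)).symm

/-- isosceles triangle: every invariant function is even under mirrored reversal -/
theorem flip_symm {F : ℂ × Dir → ℝ} (hF : Measurable F) (hE : Inv b F)
    (hiso : ‖b 1 - b 0‖ = ‖b 2 - b 0‖) :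
    ∀ᵐ z : ℂ × Dir, z ∈ Phase b → F (flipMap b z) = F z := by
  refine symm_of_levels hF hE fun h hm hi hb => ?_
  set G : ℂ × Dir → ℝ := fun z => h z - h (flipMap b z) with hG
  have hif : Inv b fun z => h (flipMap b z) := by
    simp only [flipMap_eq]
    exact inv_mirMap hiso (inv_turn hi)
  filter_upwards [flip_zero (b := b) (F := G) (M := 2) (hm.sub (hm.comp (mp_flipMap b).measurable))
    (fun z => (abs_sub _ _).trans (by linarith [hb z, hb (flipMap b z)])) (hi.sub hif)
    (fun z => by simp only [hG, flipMap_flipMap]; ring) hiso] with z hz h0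
  exact (sub_eq_zero.1 (hz h0)).symm

variable (b) in
/-- the symmetry theorem, vertex form -/
theorem symm_vertex (F : ℂ × Dir → ℝ) (hF : AEMeasurable F (phaseMeasure (b 0) (b 1) (b 2)))
    (hinv : ∀ t : ℝ, 0 ≤ t → ∀ᵐ z ∂phaseMeasure (b 0) (b 1) (b 2), ∀ z' : ℂ × Dir,
      z'.1 ∈ openTriangle (b 0) (b 1) (b 2) → Reaches (b 0) (b 1) (b 2) z t z' → F z' = F z) :
    (⟪b 1 - b 0, b 2 - b 0⟫ = 0 →
      ∀ᵐ z ∂phaseMeasure (b 0) (b 1) (b 2), F (turn z) = F z) ∧
    (‖b 1 - b 0‖ = ‖b 2 - b 0‖ →
      ∀ᵐ z ∂phaseMeasure (b 0) (b 1) (b 2), F (flipMap b z) = F z) := by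
  set F0 := hF.mk F
  have heq : ∀ᵐ z : ℂ × Dir, z ∈ Phase b → F z = F0 z :=
    (ae_phaseMeasure_iff b).1 hF.ae_eq_mk
  have hE : Inv b F0 := by
    intro t ht w
    filter_upwards [(ae_phaseMeasure_iff b).1 (hinv t ht.le), heq,
      (mp_endState b w t).quasiMeasurePreserving.ae heq] with z h1 h2 h3 hz hg
    rw [← h3 hg.end_mem, ← h2 hz]
    exact h1 hz _ (by rw [← tri_eq]; exact hg.end_mem) (reaches_of_good b hz hg)
  constructor
  · intro hp
    refine (ae_phaseMeasure_iff b).2 ?_
    filter_upwards [turn_symm hF.measurable_mk hE hp, heq, mp_turn.quasiMeasurePreserving.ae heq]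
      with z h1 h2 h3 h0
    exact (h3 h0).trans ((h1 h0).trans (h2 h0).symm)
  · intro hi
    refine (ae_phaseMeasure_iff b).2 ?_
    filter_upwards [flip_symm hF.measurable_mk hE hi, heq,
      (mp_flipMap b).quasiMeasurePreserving.ae heq] with z h1 h2 h3 h0
    exact (h3 (mem_tri_axisRefl hi h0)).trans ((h1 h0).trans (h2 h0).symm)

end

end Vale.Agent.P099.Sym
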