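import Vale.Agent.P099.Sym.Energy

/-! An invariant function with even flux correlations vanishes. -/

namespace Vale.Agent.P099.Sym

open MeasureTheory Complex Set Filter Topology Vale.Agent.P099
open scoped RealInnerProductSpace

noncomputable section

attribute [-simp] Complex.real_smul

variable {b : AffineBasis (Fin 3) ℝ ℂ} {F : ℂ × Dir → ℝ}

lemma measurable_primS (hF : Measurable F) {M : ℝ} (hM : ∀ z, |F z| ≤ M) (k : Fin 3) :
    Measurable fun q : Dir × ℝ => primS b F k q.1 q.2 := by
  have h0 : Measurable fun q : Dir × ℝ => q.2 * ∫ t in (0 : ℝ)..1, prof b F q.1 (q.2 * t) := by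
    simp only [intervalIntegral.integral_of_le zero_le_one]
    refine measurable_snd.mul (StronglyMeasurable.integral_prod_right' (f := fun p : (Dir × ℝ) × ℝ =>
      prof b F p.1.1 (p.1.2 * p.2)) ?_).measurable
    exact ((measurable_prof b hF).comp
      (measurable_fst.fst.prodMk (measurable_fst.snd.mul measurable_snd))).stronglyMeasurable
  have e : (fun q : Dir × ℝ => primS b F k q.1 q.2) = fun q =>
      (q.2 * ∫ t in (0 : ℝ)..1, prof b F q.1 (q.2 * t)) -
        sc q.1 (b k) * ∫ t in (0 : ℝ)..1, prof b F q.1 (sc q.1 (b k) * t) := by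
    funext q
    rw [intervalIntegral.mul_integral_comp_mul_left, intervalIntegral.mul_integral_comp_mul_left]
    simp only [mul_zero, mul_one, primS]
    rw [intervalIntegral.integral_interval_sub_left (intervalIntegrable_prof hF hM _ _ _)
      (intervalIntegrable_prof hF hM _ _ _)]
  rw [e]
  exact h0.sub (h0.comp (measurable_fst.prodMk
    ((continuous_sc.comp (continuous_fst.prodMk continuous_const)).measurable)))

lemma measurable_prim (hF : Measurable F) {M : ℝ} (hM : ∀ z, |F z| ≤ M) (k : Fin 3) :
    Measurable fun q : Dir × ℂ => prim b F k q.1 q.2 := by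
  have h1 : Measurable fun q : Dir × ℂ => (q.1, sc q.1 q.2) :=
    measurable_fst.prodMk continuous_sc.measurable
  have h := Measurable.comp (g := fun q : Dir × ℝ => primS b F k q.1 q.2)
    (measurable_primS hF hM k) h1
  exact h

lemma measurable_prim_left (hF : Measurable F) {M : ℝ} (hM : ∀ z, |F z| ≤ M) (k : Fin 3) (x : ℂ) :
    Measurable fun θ : Dir => prim b F k θ x :=
  Measurable.of_uncurry_right (f := prim b F k) (measurable_prim hF hM k)

lemma abs_prim_le (hF : Measurable F) {M : ℝ} (hM : ∀ z, |F z| ≤ M) (k : Fin 3) (θ : Dir)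
    (x : ℂ) : |prim b F k θ x| ≤ M * (‖x‖ + ‖b k‖) := by
  have h := intervalIntegral.norm_integral_le_of_norm_le_const (a := sc θ (b k)) (b := sc θ x)
    (f := prof b F θ) (C := M) fun r _ => abs_prof_le b hF hM θ r
  refine h.trans (mul_le_mul_of_nonneg_left ?_ ((abs_nonneg _).trans (hM ((0 : ℂ), (0 : Dir)))))
  exact (abs_sub _ _).trans (add_le_add (abs_sc_le _ _) (abs_sc_le _ _))

lemma integrable_dir {f : Dir → ℝ} (hf : Measurable f) {C : ℝ} (hC : ∀ θ, |f θ| ≤ C) :
    Integrable f (volume : Measure Dir) :=
  (integrable_const C).mono' hf.aestronglyMeasurable (ae_of_all _ hC)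

lemma integrable_edgeTerm (hF : Measurable F) {M : ℝ} (hM : ∀ z, |F z| ≤ M) (k i : Fin 3)
    (u : ℝ) : Integrable (edgeTerm b F k i u) (volume : Measure Dir) := by
  have hM0 : 0 ≤ M := (abs_nonneg _).trans (hM ((0 : ℂ), (0 : Dir)))
  set C := ‖b (i + 1)‖ + ‖sideVec b i‖ + ‖b k‖ with hC
  have hc : Continuous (sidePt b i) := by unfold sidePt; fun_prop
  have hsc := continuous_sc
  have hm : Measurable fun q : Dir × ℝ => prof b F q.1 (sc q.1 (sidePt b i q.2)) *
      prim b F k (q.1 + (u : Dir)) (sidePt b i q.2) := by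
    have h1 : Measurable fun q : Dir × ℝ => (q.1, sc q.1 (sidePt b i q.2)) :=
      measurable_fst.prodMk (hsc.comp (continuous_fst.prodMk (hc.comp continuous_snd))).measurable
    have h2 : Measurable fun q : Dir × ℝ => (q.1 + (u : Dir), sidePt b i q.2) :=
      (measurable_fst.add_const _).prodMk (hc.measurable.comp measurable_snd)
    have a1 := Measurable.comp (g := fun q : Dir × ℝ => prof b F q.1 q.2) (measurable_prof b hF) h1
    have a2 := Measurable.comp (g := fun q : Dir × ℂ => prim b F k q.1 q.2)
      (measurable_prim hF hM k) h2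
    exact a1.mul a2
  have heq : edgeTerm b F k i u = fun θ => sc θ (sideVec b i) * ∫ r in (0 : ℝ)..1,
      prof b F θ (sc θ (sidePt b i r)) * prim b F k (θ + (u : Dir)) (sidePt b i r) :=
    funext (edgeTerm_eq k i u)
  rw [heq]
  refine integrable_dir ?_ (C := ‖sideVec b i‖ * (M * (M * C))) fun θ => ?_
  · simp only [intervalIntegral.integral_of_le zero_le_one]
    exact ((hsc.comp (continuous_id.prodMk continuous_const)).measurable).mul
      hm.stronglyMeasurable.integral_prod_right'.measurable
  rw [abs_mul]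
  refine mul_le_mul (abs_sc_le _ _) ?_ (abs_nonneg _) (norm_nonneg _)
  rw [← Real.norm_eq_abs]
  refine le_trans (intervalIntegral.norm_integral_le_of_norm_le_const (C := M * (M * C))
    fun r hr => ?_) (le_of_eq (by norm_num))
  rw [uIoc_of_le zero_le_one] at hr
  rw [Real.norm_eq_abs, abs_mul]
  refine mul_le_mul (abs_prof_le b hF hM _ _) ((abs_prim_le hF hM k _ _).trans ?_) (abs_nonneg _) hM0
  refine mul_le_mul_of_nonneg_left ?_ hM0
  have : ‖sidePt b i r‖ ≤ ‖b (i + 1)‖ + ‖sideVec b i‖ := by
    refine (norm_add_le _ _).trans (add_le_add le_rfl ?_)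
    rw [norm_smul, Real.norm_eq_abs, abs_of_pos hr.1]
    exact mul_le_of_le_one_left (norm_nonneg _) hr.2
  linarith

lemma integrable_flux_jump (hF : Measurable F) {M : ℝ} (hM : ∀ z, |F z| ≤ M) (k i : Fin 3)
    (u : ℝ) : Integrable (fun θ => flux b F i θ * jump b F k i (θ - (u : Dir)))
      (volume : Measure Dir) := by
  have hM0 : 0 ≤ M := (abs_nonneg _).trans (hM ((0 : ℂ), (0 : Dir)))
  have hP := measurable_prim (b := b) hF hM k
  have hmir : Measurable (mirror b i) := (mp_mirror b i).measurable
  have hfl : flux b F i = fun θ => prim b F k θ (b (i + 2)) - prim b F k θ (b (i + 1)) :=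
    funext fun θ => flux_eq hF hM k i θ
  set C := M * (‖b (i + 1)‖ + ‖b k‖) + M * (‖b (i + 2)‖ + ‖b k‖)
  set C' := M * (‖b (i + 1)‖ + ‖b k‖) + M * (‖b (i + 1)‖ + ‖b k‖)
  refine integrable_dir ?_ (C := C * C') fun θ => ?_
  · rw [hfl]; unfold jump
    have hl := measurable_prim_left (b := b) hF hM k
    refine Measurable.mul ((hl _).sub (hl _)) ?_
    have hs : Measurable fun θ : Dir => θ - (u : Dir) := measurable_id.sub_const _
    exact Measurable.add (Measurable.comp (g := fun θ => prim b F k θ (b (i + 1))) (hl _) hs)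
      (Measurable.comp (g := fun θ => prim b F k θ (b (i + 1))) (hl _) (hmir.comp hs))
  rw [abs_mul, hfl]
  refine mul_le_mul ((abs_sub _ _).trans ?_) ((abs_add_le _ _).trans (add_le_add
    (abs_prim_le hF hM k _ _) (abs_prim_le hF hM k _ _))) (abs_nonneg _) (by positivity)
  rw [add_comm]
  exact add_le_add (abs_prim_le hF hM k _ _) (abs_prim_le hF hM k _ _)

lemma measure_phase_ne_top : volume (Phase b) ≠ ⊤ := by
  rw [show Phase b = Tri b ×ˢ (univ : Set Dir) by ext; simp [Phase], Measure.volume_eq_prod,
    Measure.prod_prod]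
  exact ENNReal.mul_ne_top (isBounded_tri b).measure_lt_top.ne (measure_ne_top _ _)

lemma spin_mem_phase (u : ℝ) (z : ℂ × Dir) : spin u z ∈ Phase b ↔ z ∈ Phase b := Iff.rfl

lemma countable_bad_dirs : {θ : Dir | ∃ i, sc θ (sideVec b i) = 0}.Countable := by
  rw [Set.ofPred_exists]
  refine countable_iUnion fun i => ?_
  let L : ℂ →ₗ[ℝ] ℝ :=
    { toFun := fun v => ⟪sideVec b i, I * v⟫
      map_add' := fun x y => by rw [mul_add, inner_add_right]
      map_smul' := fun r x => by
        rw [RingHom.id_apply, mul_smul_comm, real_inner_smul_right, smul_eq_mul] }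
  refine countable_unitVec_level L ⟨-I * sideVec b i, ?_⟩ 0
  show ⟪sideVec b i, I * (-I * sideVec b i)⟫ ≠ 0
  rw [show I * (-I * sideVec b i) = sideVec b i by rw [← mul_assoc, mul_neg, Complex.I_mul_I]; ring]
  exact inner_self_ne_zero.2 (sideVec_ne_zero b i)

/-- the autocorrelation in the direction variable vanishes -/
theorem integral_corr_eq_zero (hF : Measurable F) {M : ℝ} (hM : ∀ z, |F z| ≤ M) (hE : Inv b F)
    (k : Fin 3) {u : ℝ} (hu : Real.sin u ≠ 0)
    (hC : ∑ i, ∫ θ : Dir, flux b F i θ * jump b F k i (θ - (u : Dir)) = 0) :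
    ∫ θ : Dir, corr b F u θ = 0 := by
  have hZ : ∀ v : ℝ, Real.sin v ≠ 0 → ∑ i, ∫ θ : Dir, edgeTerm b F k i v θ =
      -(Real.sign (ori b) * Real.sin v * ∫ θ : Dir, corr b F v θ) := by
    intro v hv
    rw [← integral_const_mul, ← integral_neg,
      ← integral_finsetSum _ fun i _ => integrable_edgeTerm hF hM k i v]
    refine integral_congr_ae ?_
    filter_upwards [(countable_bad_dirs (b := b)).ae_notMem (volume : Measure Dir)] with θ hθ
    have := corr_eq hF hM k hv (θ := θ) fun i h => hθ ⟨i, h⟩
    linarith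
  have hflip : ∀ i, ∫ θ : Dir, edgeTerm b F k i u θ = (∫ θ : Dir, edgeTerm b F k i (-u) θ) -
      ∫ θ : Dir, flux b F i θ * jump b F k i (θ - (u : Dir)) := by
    intro i
    rw [← integral_sub_left_eq_self (edgeTerm b F k i u) (volume : Measure Dir)
      ((2 * Complex.arg (sideVec b i) : ℝ) : Dir),
      ← integral_sub (integrable_edgeTerm hF hM k i (-u)) (integrable_flux_jump hF hM k i u)]
    exact integral_congr_ae (edgeTerm_mirror hF hM hE k i u)
  have hsym : ∫ θ : Dir, corr b F (-u) θ = ∫ θ : Dir, corr b F u θ := by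
    rw [← integral_add_right_eq_self (μ := (volume : Measure Dir)) (corr b F (-u)) (u : Dir)]
    refine integral_congr_ae (ae_of_all _ fun θ => ?_)
    simp only [corr, AddCircle.coe_neg, add_neg_cancel_right]
    exact integral_congr_ae (ae_of_all _ fun x => mul_comm _ _)
  have h1 := hZ u hu
  have h2 := hZ (-u) (by rwa [Real.sin_neg, neg_ne_zero])
  simp only [hflip, Finset.sum_sub_distrib, hC, sub_zero] at h1
  rw [h1, Real.sin_neg, hsym] at h2
  have hs : Real.sign (ori b) ≠ 0 := by simp [Real.sign_eq_zero_iff, ori_ne_zero]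
  have : Real.sign (ori b) * Real.sin u * ∫ θ : Dir, corr b F u θ = 0 := by linarith
  exact (mul_eq_zero.1 this).resolve_left (mul_ne_zero hs hu)

/-- vanishing criterion -/
theorem ae_zero_of_even_correlation (hF : Measurable F) {M : ℝ} (hM : ∀ z, |F z| ≤ M)
    (hE : Inv b F) (k : Fin 3)
    (hC : ∀ u : ℝ, ∑ i, ∫ θ : Dir, flux b F i θ * jump b F k i (θ - (u : Dir)) = 0) :
    ∀ᵐ z : ℂ × Dir, z ∈ Phase b → F z = 0 := by
  have hM0 : 0 ≤ M := (abs_nonneg _).trans (hM ((0 : ℂ), (0 : Dir)))
  set G := (Phase b).indicator F with hG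
  have hGm : Measurable G := hF.indicator (measurableSet_phase b)
  have hGb : ∀ z, |G z| ≤ M := fun z => by
    by_cases h : z ∈ Phase b <;> simp [hG, h, hM, hM0]
  have hGi : Integrable G := (integrable_indicator_iff (measurableSet_phase b)).2
    (IntegrableOn.of_bound measure_phase_ne_top.lt_top hF.aestronglyMeasurable M (ae_of_all _ hM))
  have hcor : ∀ u : ℝ, Real.sin u ≠ 0 → ∫ z, G z * G (spin u z) = 0 := by
    intro u hu
    have e0 : ∫ z, G z * G (spin u z) = ∫ z in Phase b, F z * F (spin u z) := by
      rw [← MeasureTheory.integral_indicator (measurableSet_phase b)]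
      refine integral_congr_ae (ae_of_all _ fun z => ?_)
      by_cases h : z ∈ Phase b <;> simp [hG, h, spin_mem_phase]
    have hP := eq_prof b hF hE
    have e1 : ∫ z in Phase b, F z * F (spin u z) = ∫ z in Phase b,
        prof b F z.2 (sc z.2 z.1) * prof b F (z.2 + (u : Dir)) (sc (z.2 + (u : Dir)) z.1) := by
      refine setIntegral_congr_ae (measurableSet_phase b) ?_
      filter_upwards [hP, (mp_spin u).quasiMeasurePreserving.ae hP] with z h1 h2 h0
      rw [← h1 h0, h2 h0]; rfl
    have hint : Integrable (fun z : ℂ × Dir =>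
        prof b F z.2 (sc z.2 z.1) * prof b F (z.2 + (u : Dir)) (sc (z.2 + (u : Dir)) z.1))
        (((volume : Measure ℂ).restrict (Tri b)).prod (volume : Measure Dir)) := by
      have hfin : IsFiniteMeasure ((volume : Measure ℂ).restrict (Tri b)) :=
        isFiniteMeasure_restrict.2 (isBounded_tri b).measure_lt_top.ne
      refine (integrable_const (M * M)).mono' ?_ (ae_of_all _ fun z => ?_)
      · refine (Measurable.mul ((measurable_prof b hF).comp (measurable_snd.prodMk ?_))
          ((measurable_prof b hF).comp ((measurable_snd.add_const _).prodMk ?_))).aestronglyMeasurable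
        · exact (continuous_sc.comp (continuous_snd.prodMk continuous_fst)).measurable
        · exact (continuous_sc.comp ((continuous_snd.add continuous_const).prodMk continuous_fst)
            ).measurable
      · rw [Real.norm_eq_abs, abs_mul]
        exact mul_le_mul (abs_prof_le b hF hM _ _) (abs_prof_le b hF hM _ _) (abs_nonneg _) hM0
    rw [e0, e1, restrict_phase, integral_prod_symm _ hint]
    exact integral_corr_eq_zero hF hM hE k hu (hC u)
  have hkey : ∀ ε > 0, ∫ z, G z * G z ≤ 2 * M * ε := by
    intro ε hε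
    obtain ⟨K, hKc, hKε, hKcont, hKi⟩ := hGi.exists_hasCompactSupport_integral_sub_le hε
    obtain ⟨C, hCb⟩ := hKcont.bounded_above_of_compact_support hKc
    have hC0 : 0 ≤ C := (norm_nonneg _).trans (hCb ((0 : ℂ), (0 : Dir)))
    have hd : ∀ f : ℂ × Dir → ℝ, Measurable f → Integrable f →
        |(∫ z, G z * f z) - ∫ z, G z * K z| ≤ M * ∫ z, ‖f z - K z‖ := by
      intro f hfm hfi
      rw [← integral_sub (hfi.bdd_mul hGm.aestronglyMeasurable (c := M) (ae_of_all _ hGb))
        (hKi.bdd_mul hGm.aestronglyMeasurable (c := M) (ae_of_all _ hGb)), ← integral_const_mul,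
        ← Real.norm_eq_abs]
      refine norm_integral_le_of_norm_le ((hfi.sub hKi).norm.const_mul M) (ae_of_all _ fun z => ?_)
      rw [← mul_sub, norm_mul]
      exact mul_le_mul_of_nonneg_right (hGb z) (norm_nonneg _)
    let un : ℕ → ℝ := fun n => 1 / (n + 1)
    have hlim : Tendsto (fun n => ∫ z, G z * K (spin (un n) z)) atTop (𝓝 (∫ z, G z * K z)) := by
      refine tendsto_integral_of_dominated_convergence (fun z => C * ‖G z‖)
        (fun n => (hGm.mul (hKcont.measurable.comp (mp_spin _).measurable)).aestronglyMeasurable)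
        (hGi.norm.const_mul C) (fun n => ae_of_all _ fun z => ?_) (ae_of_all _ fun z => ?_)
      · rw [norm_mul, mul_comm]
        exact mul_le_mul_of_nonneg_right (hCb _) (norm_nonneg _)
      · have hc : Continuous fun u : ℝ => spin u z := by
          unfold spin; exact continuous_const.prodMk (continuous_const.add
            (AddCircle.continuous_mk' _))
        have h0 : Tendsto un atTop (𝓝 0) := tendsto_one_div_add_atTop_nhds_zero_nat
        have := ((hKcont.comp hc).tendsto 0).comp h0
        simp only [Function.comp_apply, spin, AddCircle.coe_zero, add_zero] at this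
        exact tendsto_const_nhds.mul this
    have hsmall : ∀ n, ∫ z, G z * K (spin (un n) z) ≤ M * ε := by
      intro n
      have hu : Real.sin (un n) ≠ 0 := by
        refine (Real.sin_pos_of_pos_of_lt_pi (by positivity) (lt_of_le_of_lt (b := 1) ?_ ?_)).ne'
        · exact (div_le_one (by positivity)).2 (by simp)
        · linarith [Real.pi_gt_three]
      have hmp := mp_spin (un n)
      have hKu : Integrable fun z => K (spin (un n) z) := hmp.integrable_comp_of_integrable hKi
      have hGu : Integrable fun z => G (spin (un n) z) := hmp.integrable_comp_of_integrable hGi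
      have e : ∫ z, G z * K (spin (un n) z) =
          ∫ z, G z * (K (spin (un n) z) - G (spin (un n) z)) := by
        simp only [mul_sub]
        rw [integral_sub (hKu.bdd_mul hGm.aestronglyMeasurable (c := M) (ae_of_all _ hGb))
          (hGu.bdd_mul hGm.aestronglyMeasurable (c := M) (ae_of_all _ hGb)), hcor _ hu, sub_zero]
      rw [e]
      refine (Real.le_norm_self _).trans ((norm_integral_le_of_norm_le
        ((hKu.sub hGu).norm.const_mul M) (ae_of_all _ fun z => ?_)).trans ?_)
      · rw [norm_mul]
        exact mul_le_mul_of_nonneg_right (hGb z) (norm_nonneg _)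
      rw [integral_const_mul]
      refine mul_le_mul_of_nonneg_left (le_trans (le_of_eq ?_) hKε) hM0
      have hmap : ∫ z, ‖G z - K z‖ ∂(Measure.map (spin (un n)) volume) =
          ∫ z, ‖G (spin (un n) z) - K (spin (un n) z)‖ :=
        integral_map hmp.measurable.aemeasurable (by fun_prop)
      rw [hmp.map_eq] at hmap
      rw [hmap]
      exact integral_congr_ae (ae_of_all _ fun z => norm_sub_rev _ _)
    have hle := le_of_tendsto hlim (Eventually.of_forall hsmall)
    have hG1 := (abs_le.1 (hd G hGm hGi)).2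
    nlinarith [mul_le_mul_of_nonneg_left hKε hM0]
  have h0 : ∫ z, G z * G z = 0 := by
    refine le_antisymm (le_of_forall_pos_le_add fun δ hδ => ?_)
      (integral_nonneg fun z => mul_self_nonneg _)
    refine (hkey (δ / (2 * M + 1)) (by positivity)).trans ?_
    rw [zero_add, ← mul_div_assoc, div_le_iff₀ (by positivity)]
    nlinarith
  have := (integral_eq_zero_iff_of_nonneg (fun z => mul_self_nonneg (G z))
    (hGi.bdd_mul hGm.aestronglyMeasurable (c := M) (ae_of_all _ hGb))).1 h0
  filter_upwards [this] with z hz h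
  simpa [hG, h] using hz

end

end Vale.Agent.P099.Sym
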